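import Mathlib

/-!
# Shared definitions for the hyperinvariant subspace counterexample

Site `j` is `ℂ^(dimSite j) ⊗ ℂ^(b + 1)` and carries `jMat j b`, a nilpotent shift
tensored with the diagonal matrix `2^-j * 2^-k`, `k ≤ b`.
-/

namespace Vale.Agent.P131

open scoped Matrix ComplexConjugate

noncomputable section

/-- Sum of the nilpotency orders of the sites before `n`. -/
def degSum : ℕ → ℕ
  | 0 => 0
  | n + 1 => degSum n + 2 ^ n * (degSum n + 1)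

/-- The dimension of the shift at site `j`. -/
def dimSite (j : ℕ) : ℕ := 2 ^ j * (degSum j + 1)

lemma degSum_succ (n : ℕ) : degSum (n + 1) = degSum n + dimSite n := rfl

lemma dimSite_pos (j : ℕ) : 0 < dimSite j := by unfold dimSite; positivity

instance instNeZeroDimSite (j : ℕ) : NeZero (dimSite j) := ⟨(dimSite_pos j).ne'⟩

/-- Index set of site `j` with multiplicity `b + 1`. -/
abbrev Site (j b : ℕ) : Type := Fin (dimSite j) × Fin (b + 1)

/-- Index set of a level. -/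
abbrev Idx {n : ℕ} (s : Fin n → ℕ) : Type := (i : Fin n) → Site i (s i)

/-- Index set of level `n` for a multiplicity sequence `B`. -/
abbrev Lv (B : ℕ → ℕ) (n : ℕ) : Type := Idx (fun i : Fin n => B i)

/-- The diagonal weights. -/
def coef (j : ℕ) (k : ℕ) : ℂ := (1 / 2) ^ j * (1 / 2) ^ k

/-- Shift `e i ↦ e (i - 1)` tensored with the weights. -/
def jMat (j b : ℕ) : Matrix (Site j b) (Site j b) ℂ :=
  fun x y => if x.1.val + 1 = y.1.val ∧ x.2 = y.2 then coef j x.2.val else 0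

/-- A matrix acting at one site of a level. -/
def lift {n : ℕ} {s : Fin n → ℕ} (i : Fin n)
    (M : Matrix (Site i (s i)) (Site i (s i)) ℂ) : Matrix (Idx s) (Idx s) ℂ :=
  fun u v => if ∀ k, k ≠ i → u k = v k then M (u i) (v i) else 0

/-- The finite truncation of the operator. -/
def tMat {n : ℕ} (s : Fin n → ℕ) : Matrix (Idx s) (Idx s) ℂ :=
  ∑ i, lift i (jMat i (s i))

/-- Squared normalised Hilbert-Schmidt norm. -/
def nsq {ι : Type*} [Fintype ι] (X : Matrix ι ι ℂ) : ℝ :=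
  (∑ x, ∑ y, ‖X x y‖ ^ 2) / Fintype.card ι

/-- Normalised trace. -/
def ntr {ι : Type*} [Fintype ι] (X : Matrix ι ι ℂ) : ℂ :=
  (∑ x, X x x) / Fintype.card ι

/-- Restriction of a level index. -/
def trunc {B : ℕ → ℕ} {n m : ℕ} (h : n ≤ m) (u : Lv B m) : Lv B n :=
  fun i => u (Fin.castLE h i)

/-- `X ↦ X ⊗ 1` from level `n` to level `m`. -/
def embL {B : ℕ → ℕ} {n m : ℕ} (h : n ≤ m) (X : Matrix (Lv B n) (Lv B n) ℂ) :
    Matrix (Lv B m) (Lv B m) ℂ :=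
  fun u v => if ∀ i : Fin m, n ≤ i.val → u i = v i then X (trunc h u) (trunc h v) else 0

/-- `Z` is of the form `Y ⊗ 1` with respect to the last site. -/
def LastFree {n : ℕ} {s : Fin (n + 1) → ℕ} (Z : Matrix (Idx s) (Idx s) ℂ) : Prop :=
  (∀ u v, u (Fin.last n) ≠ v (Fin.last n) → Z u v = 0) ∧
  ∀ u v u' v', u (Fin.last n) = v (Fin.last n) → u' (Fin.last n) = v' (Fin.last n) →
    (∀ i : Fin n, u i.castSucc = u' i.castSucc) →
    (∀ i : Fin n, v i.castSucc = v' i.castSucc) → Z u v = Z u' v'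

/-- Goal of `Finite.lean`: almost invariant almost projections do not see the prefix. -/
def GoalFinite : Prop :=
  ∀ {n : ℕ} (s : Fin (n + 1) → ℕ), ∃ η : ℝ, 0 < η ∧
    ∃ S : Finset (Matrix (Idx s) (Idx s) ℂ), (∀ a ∈ S, a * tMat s = tMat s * a) ∧
      ∀ f : Matrix (Idx s) (Idx s) ℂ, (∀ x y, ‖f x y‖ ≤ 1) → fᴴ = f →
        nsq (f * f - f) < η → (∀ a ∈ S, nsq (f * a * f - a * f) < η) →
        ∀ Z : Matrix (Idx s) (Idx s) ℂ, LastFree Z → (∀ z, nsq (Z * z) ≤ nsq z) →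
          ‖ntr (f * Z) - ntr f * ntr Z‖ ≤ 10 * (1 / 2 : ℝ) ^ n

/-- A standard representation of the union of the levels on a Hilbert space. -/
structure Model (B : ℕ → ℕ) (H : Type) [NormedAddCommGroup H] [InnerProductSpace ℂ H]
    [CompleteSpace H] where
  L : ∀ n, Matrix (Lv B n) (Lv B n) ℂ →ₗ[ℂ] (H →L[ℂ] H)
  R : ∀ n, Matrix (Lv B n) (Lv B n) ℂ →ₗ[ℂ] (H →L[ℂ] H)
  vac : H
  L_one : ∀ n, L n 1 = 1
  R_one : ∀ n, R n 1 = 1
  L_mul : ∀ n X Y, L n (X * Y) = L n X * L n Y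
  R_mul : ∀ n X Y, R n (X * Y) = R n Y * R n X
  L_adj : ∀ n X, ContinuousLinearMap.adjoint (L n X) = L n Xᴴ
  R_adj : ∀ n X, ContinuousLinearMap.adjoint (R n X) = R n Xᴴ
  comm : ∀ n m X Y, L n X * R m Y = R m Y * L n X
  L_emb : ∀ n m (h : n ≤ m) X, L m (embL h X) = L n X
  R_emb : ∀ n m (h : n ≤ m) X, R m (embL h X) = R n X
  vac_eq : ∀ n X, L n X vac = R n X vac
  vac_norm : ∀ n X, ‖L n X vac‖ ^ 2 = nsq X
  dense : ∀ ξ : H, ∀ ε : ℝ, 0 < ε → ∃ n X, ‖L n X vac - ξ‖ < ε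

/-- Goal of `ModelExists.lean`. -/
def GoalModel : Prop :=
  ∀ B : ℕ → ℕ, Nonempty (Model B (lp (fun _ : ℕ => ℂ) 2))

/-- The final target. -/
def GoalMain : Prop :=
  ∃ T : lp (fun _ : ℕ => ℂ) 2 →L[ℂ] lp (fun _ : ℕ => ℂ) 2,
    (∀ c : ℂ, T ≠ c • 1) ∧
      ∀ M : Submodule ℂ (lp (fun _ : ℕ => ℂ) 2),
        IsClosed (M : Set (lp (fun _ : ℕ => ℂ) 2)) →
        (∀ A : lp (fun _ : ℕ => ℂ) 2 →L[ℂ] lp (fun _ : ℕ => ℂ) 2,
          A * T = T * A → ∀ x ∈ M, A x ∈ M) → M = ⊥ ∨ M = ⊤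

end

end Vale.Agent.P131
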