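import Vale.Agent.P131.Op

/-!
# Conditional expectations of an invariant projection
-/

namespace Vale.Agent.P131

open scoped Matrix ComplexConjugate InnerProductSpace Topology
open Finset Filter

noncomputable section

variable {B : ℕ → ℕ} {H : Type} [NormedAddCommGroup H] [InnerProductSpace ℂ H] [CompleteSpace H]

/-- What is used about the projection on a hyperinvariant subspace. -/
structure InvProj (md : Model B H) where
  P : H →L[ℂ] H
  sa : ∀ x y, ⟪P x, y⟫_ℂ = ⟪x, P y⟫_ℂ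
  idem : ∀ x, P (P x) = P x
  commR : ∀ n X x, P (md.R n X x) = md.R n X (P x)
  invL : ∀ n a, a * tMat (fun i : Fin n => B i) = tMat (fun i : Fin n => B i) * a →
    ∀ x, P (md.L n a (P x)) = md.L n a (P x)

namespace InvProj

variable {md : Model B H} (ip : InvProj md)

lemma norm_apply_le (x : H) : ‖ip.P x‖ ≤ ‖x‖ := by
  have h1 : ‖ip.P x‖ ^ 2 = (⟪x, ip.P x⟫_ℂ).re := by
    have h : ⟪ip.P x, ip.P x⟫_ℂ = ⟪x, ip.P x⟫_ℂ := by rw [ip.sa, ip.idem]
    have h2 : ‖ip.P x‖ ^ 2 = RCLike.re ⟪ip.P x, ip.P x⟫_ℂ := norm_sq_eq_re_inner (ip.P x)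
    rw [h2, h]; rfl
  have h3 : (⟪x, ip.P x⟫_ℂ).re ≤ ‖x‖ * ‖ip.P x‖ :=
    (Complex.re_le_norm _).trans (norm_inner_le_norm _ _)
  nlinarith [norm_nonneg (ip.P x), norm_nonneg x]

lemma norm_compl_le (x : H) : ‖ip.P x - x‖ ≤ ‖x‖ := by
  have horth : ⟪ip.P x, ip.P x - x⟫_ℂ = 0 := by
    rw [inner_sub_right, ip.sa, ip.idem, ip.sa, sub_self]
  have h := norm_sub_sq (𝕜 := ℂ) (ip.P x) (ip.P x - x)
  rw [horth, sub_sub_cancel] at h
  simp only [map_zero, mul_zero, sub_zero] at h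
  nlinarith [norm_nonneg (ip.P x - x), norm_nonneg x, sq_nonneg ‖ip.P x‖]

/-- The image of the vacuum. -/
def pv : H := ip.P md.vac

lemma P_pv : ip.P ip.pv = ip.pv := ip.idem _

/-- The conditional expectation of the projection on level `m`. -/
def pm (m : ℕ) : Matrix (Lv B m) (Lv B m) ℂ :=
  fun u v => (Fintype.card (Lv B m) : ℂ) * ⟪md.vec m (Matrix.single u v 1), ip.pv⟫_ℂ

lemma inner_pv (m : ℕ) (X : Matrix (Lv B m) (Lv B m) ℂ) :
    ⟪md.vec m X, ip.pv⟫_ℂ = ntr (Xᴴ * ip.pm m) := by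
  have hc : (Fintype.card (Lv B m) : ℂ) ≠ 0 := by exact_mod_cast Fintype.card_pos.ne'
  rw [ntr_conjTranspose_mul]
  conv_lhs => rw [Matrix.matrix_eq_sum_single X]
  have hs : ∀ u v, Matrix.single u v (X u v) = X u v • Matrix.single u v (1 : ℂ) := fun u v => by
    rw [Matrix.smul_single, smul_eq_mul, mul_one]
  simp only [hs, Model.vec, map_sum, map_smul, _root_.sum_apply,
    smul_apply, sum_inner, inner_smul_left, Finset.sum_div]
  refine Finset.sum_congr rfl fun u _ => Finset.sum_congr rfl fun v _ => ?_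
  simp only [pm, Model.vec]
  field_simp

lemma vec_orth (m : ℕ) (Y : Matrix (Lv B m) (Lv B m) ℂ) :
    ⟪md.vec m Y, ip.pv - md.vec m (ip.pm m)⟫_ℂ = 0 := by
  rw [inner_sub_right, inner_pv, Model.inner_vec, sub_self]

/-- The distance of the vector of the projection to level `m`. -/
def dist' (m : ℕ) : ℝ := ‖ip.pv - md.vec m (ip.pm m)‖

lemma dist'_nonneg (m : ℕ) : 0 ≤ ip.dist' m := norm_nonneg _

lemma dist'_le (m : ℕ) (X : Matrix (Lv B m) (Lv B m) ℂ) :
    ip.dist' m ≤ ‖ip.pv - md.vec m X‖ := by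
  have h := norm_add_sq (𝕜 := ℂ) (md.vec m (ip.pm m - X)) (ip.pv - md.vec m (ip.pm m))
  rw [ip.vec_orth] at h
  have e : md.vec m (ip.pm m - X) + (ip.pv - md.vec m (ip.pm m)) = ip.pv - md.vec m X := by
    rw [Model.vec_sub]; abel
  rw [e] at h
  simp only [map_zero, mul_zero, add_zero] at h
  unfold dist'
  nlinarith [norm_nonneg (ip.pv - md.vec m (ip.pm m)), norm_nonneg (ip.pv - md.vec m X),
    sq_nonneg ‖md.vec m (ip.pm m - X)‖]

lemma tendsto_dist' : Tendsto ip.dist' atTop (𝓝 0) := by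
  rw [Metric.tendsto_atTop]
  intro ε hε
  obtain ⟨n, hn⟩ := md.dense_ge ip.pv hε
  refine ⟨n, fun m hm => ?_⟩
  obtain ⟨X, hX⟩ := hn m hm
  rw [Real.dist_eq, sub_zero, abs_of_nonneg (ip.dist'_nonneg m)]
  exact (ip.dist'_le m X).trans_lt (by rwa [norm_sub_rev])

lemma P_vec (m : ℕ) (X : Matrix (Lv B m) (Lv B m) ℂ) :
    ip.P (md.vec m X) = md.R m X ip.pv := by
  rw [Model.vec, md.vac_eq, ip.commR]; rfl

lemma inner_P_vec (m : ℕ) (Z X : Matrix (Lv B m) (Lv B m) ℂ) :
    ⟪md.vec m Z, ip.P (md.vec m X)⟫_ℂ = ntr (Zᴴ * ip.pm m * X) := by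
  rw [P_vec, ← ContinuousLinearMap.adjoint_inner_left, md.R_adj]
  have e : md.R m Xᴴ (md.vec m Z) = md.vec m (Z * Xᴴ) := by
    have h := congrArg (fun A : H →L[ℂ] H => A md.vac) (md.comm m m Z Xᴴ)
    simp only [mul_apply_eq_comp] at h
    rw [Model.vec, ← h, ← md.vac_eq, ← mul_apply_eq_comp, ← md.L_mul]; rfl
  rw [e, inner_pv, Matrix.conjTranspose_mul, Matrix.conjTranspose_conjTranspose, mul_assoc,
    ntr_mul_comm]

lemma pm_herm (m : ℕ) : (ip.pm m)ᴴ = ip.pm m := by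
  have key : ∀ X, ntr (ip.pm m * X) = conj (ntr (Xᴴ * ip.pm m)) := by
    intro X
    rw [← ip.inner_pv, inner_conj_symm]
    have h := ip.inner_P_vec m 1 X
    rw [Matrix.conjTranspose_one, one_mul, Model.vec_one] at h
    rw [← h, ← ip.sa]; rfl
  have key2 : ∀ X, ntr (((ip.pm m)ᴴ - ip.pm m) * X) = 0 := by
    intro X
    rw [sub_mul, ntr_sub, key X, ← ntr_conjTranspose, Matrix.conjTranspose_mul,
      Matrix.conjTranspose_conjTranspose, sub_self]
  have h0 := key2 ((ip.pm m)ᴴ - ip.pm m)ᴴ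
  rw [ntr_mul_comm, ntr_self] at h0
  have h1 : fro ((ip.pm m)ᴴ - ip.pm m) = 0 := by
    have h2 : nsq ((ip.pm m)ᴴ - ip.pm m) = 0 := by exact_mod_cast h0
    rw [nsq_eq, div_eq_zero_iff] at h2
    exact h2.resolve_right (card_pos B m).ne'
  ext u v
  have h3 := (Finset.sum_eq_zero_iff_of_nonneg (fun _ _ => by positivity)).1 h1 u (mem_univ _)
  have h4 := (Finset.sum_eq_zero_iff_of_nonneg (fun _ _ => by positivity)).1 h3 v (mem_univ _)
  simpa [sub_eq_zero] using h4

lemma nsq_pm_mul_le (m : ℕ) (z : Matrix (Lv B m) (Lv B m) ℂ) :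
    nsq (ip.pm m * z) ≤ nsq z := by
  rw [← md.norm_vec_sq, ← md.norm_vec_sq]
  have h : ⟪md.vec m (ip.pm m * z), md.vec m (ip.pm m * z)⟫_ℂ
      = ⟪md.vec m (ip.pm m * z), ip.P (md.vec m z)⟫_ℂ := by
    rw [inner_P_vec, Model.inner_vec, mul_assoc]
  have h2 : ‖md.vec m (ip.pm m * z)‖ ^ 2 ≤ ‖md.vec m (ip.pm m * z)‖ * ‖md.vec m z‖ := by
    calc _ = RCLike.re ⟪md.vec m (ip.pm m * z), md.vec m (ip.pm m * z)⟫_ℂ :=
          norm_sq_eq_re_inner _
      _ ≤ ‖md.vec m (ip.pm m * z)‖ * ‖ip.P (md.vec m z)‖ := by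
          rw [h]; exact (RCLike.re_le_norm _).trans (norm_inner_le_norm _ _)
      _ ≤ _ := by gcongr; exact ip.norm_apply_le _
  nlinarith [norm_nonneg (md.vec m (ip.pm m * z)), norm_nonneg (md.vec m z)]

lemma pm_row_le (m : ℕ) (u : Lv B m) : ∑ v, ‖ip.pm m u v‖ ^ 2 ≤ 1 := by
  have h := ip.nsq_pm_mul_le m (Matrix.single u u 1)
  rw [nsq_eq, nsq_eq] at h
  have h' := (div_le_div_iff_of_pos_right (card_pos B m)).1 h
  have e1 : fro (Matrix.single u u (1 : ℂ)) = 1 := by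
    unfold fro
    rw [Finset.sum_eq_single u, Finset.sum_eq_single u] <;>
      simp +contextual [eq_comm, Matrix.single_apply]
  have e2 : fro (ip.pm m * Matrix.single u u 1) = ∑ v, ‖ip.pm m u v‖ ^ 2 := by
    unfold fro
    refine Finset.sum_congr rfl fun x _ => ?_
    rw [Finset.sum_eq_single u]
    · rw [Matrix.mul_single_apply_same, mul_one]
      conv_rhs => rw [← ip.pm_herm m, Matrix.conjTranspose_apply, norm_star]
    · intro y _ hy; simp [Matrix.mul_single_apply_of_ne _ _ _ _ _ hy]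
    · simp
  linarith

lemma pm_entry_le (m : ℕ) (u v : Lv B m) : ‖ip.pm m u v‖ ≤ 1 :=
  (sq_le_one_iff₀ (norm_nonneg _)).1 ((Finset.single_le_sum
    (f := fun v => ‖ip.pm m u v‖ ^ 2) (fun _ _ => by positivity) (mem_univ v)).trans
    (ip.pm_row_le m u))

lemma nsq_mul_pm_le (m : ℕ) (X : Matrix (Lv B m) (Lv B m) ℂ) :
    nsq (X * ip.pm m) ≤ nsq X := by
  have h := ip.nsq_pm_mul_le m Xᴴ
  rw [← nsq_conjTranspose (X * ip.pm m), Matrix.conjTranspose_mul, ip.pm_herm]
  rwa [nsq_conjTranspose X] at h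

lemma near_inv (m : ℕ) (a : Matrix (Lv B m) (Lv B m) ℂ)
    (ha : ∀ x, ip.P (md.L m a (ip.P x)) = md.L m a (ip.P x)) :
    nsq (ip.pm m * a * ip.pm m - a * ip.pm m) ≤ (‖md.L m a‖ * ip.dist' m) ^ 2 := by
  set Y := ip.pm m * a * ip.pm m - a * ip.pm m with hY
  set w := md.vec m (a * ip.pm m) with hw
  have h1 : ⟪md.vec m Y, md.vec m Y⟫_ℂ = ⟪md.vec m Y, ip.P w - w⟫_ℂ := by
    rw [inner_sub_right, hw, inner_P_vec, Model.inner_vec, Model.inner_vec, ← ntr_sub]
    congr 1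
    conv_lhs => arg 2; rw [hY]
    simp only [mul_sub, mul_assoc]
  have h2 : ‖ip.P w - w‖ ≤ ‖md.L m a‖ * ip.dist' m := by
    have e : ip.P w - w = ip.P (md.L m a (md.vec m (ip.pm m) - ip.pv))
        - md.L m a (md.vec m (ip.pm m) - ip.pv) := by
      have hp : ip.P (md.L m a ip.pv) = md.L m a ip.pv := ha md.vac
      rw [hw, ← Model.L_vec, map_sub, map_sub, hp]; abel
    rw [e]
    refine (ip.norm_compl_le _).trans ((ContinuousLinearMap.le_opNorm _ _).trans ?_)
    rw [dist', norm_sub_rev]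
  have h3 : ‖md.vec m Y‖ ^ 2 ≤ ‖md.vec m Y‖ * (‖md.L m a‖ * ip.dist' m) := by
    calc _ = RCLike.re ⟪md.vec m Y, md.vec m Y⟫_ℂ := norm_sq_eq_re_inner _
      _ ≤ ‖md.vec m Y‖ * ‖ip.P w - w‖ := by
          rw [h1]; exact (RCLike.re_le_norm _).trans (norm_inner_le_norm _ _)
      _ ≤ _ := by gcongr
  rw [← md.norm_vec_sq]
  have : ‖md.vec m Y‖ ≤ ‖md.L m a‖ * ip.dist' m := by
    nlinarith [norm_nonneg (md.vec m Y), mul_nonneg (norm_nonneg (md.L m a)) (ip.dist'_nonneg m)]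
  gcongr

lemma invL_emb {n m : ℕ} (h : n ≤ m) (a : Matrix (Lv B n) (Lv B n) ℂ)
    (ha : a * tMat (fun i : Fin n => B i) = tMat (fun i : Fin n => B i) * a) (x : H) :
    ip.P (md.L m (embL h a) (ip.P x)) = md.L m (embL h a) (ip.P x) := by
  rw [md.L_emb]; exact ip.invL n a ha x

lemma near_inv_emb {n m : ℕ} (h : n ≤ m) (a : Matrix (Lv B n) (Lv B n) ℂ)
    (ha : a * tMat (fun i : Fin n => B i) = tMat (fun i : Fin n => B i) * a) :
    nsq (ip.pm m * embL h a * ip.pm m - embL h a * ip.pm m)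
      ≤ (‖md.L n a‖ * ip.dist' m) ^ 2 := by
  have := ip.near_inv m (embL h a) (ip.invL_emb h a ha)
  rwa [md.L_emb] at this

lemma nsq_idem_le (m : ℕ) : nsq (ip.pm m * ip.pm m - ip.pm m) ≤ ip.dist' m ^ 2 := by
  have := ip.near_inv m 1 (fun x => by simp [md.L_one, ip.idem])
  rw [mul_one, one_mul, md.L_one] at this
  refine this.trans ?_
  gcongr
  · exact mul_nonneg (norm_nonneg _) (ip.dist'_nonneg m)
  · exact mul_le_of_le_one_left (ip.dist'_nonneg m) ContinuousLinearMap.norm_id_le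

lemma ntr_emb_pm {n m : ℕ} (h : n ≤ m) (X : Matrix (Lv B n) (Lv B n) ℂ) :
    ntr (embL h X * ip.pm m) = ntr (X * ip.pm n) := by
  have h1 := ip.inner_pv m (embL h Xᴴ)
  rw [Model.vec_emb, ip.inner_pv, embL_conjTranspose, Matrix.conjTranspose_conjTranspose] at h1
  exact h1.symm

lemma ntr_pm (m : ℕ) : ntr (ip.pm m) = ⟪md.vac, ip.pv⟫_ℂ := by
  have := ip.inner_pv m 1
  rw [Model.vec_one, Matrix.conjTranspose_one, one_mul] at this
  exact this.symm

lemma pm_eq_avg {n m : ℕ} (h : n ≤ m) (u v : Lv B n) :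
    (Fintype.card (Lv B m) : ℂ) * ip.pm n u v = ∑ w, blk n (ip.pm m) w u v := by
  have hc : (Fintype.card (Lv B n) : ℂ) ≠ 0 := by exact_mod_cast Fintype.card_pos.ne'
  have hE : ∀ M : Matrix (Lv B n) (Lv B n) ℂ,
      ntr (Matrix.single v u (1 : ℂ) * M) = M u v / Fintype.card (Lv B n) := by
    intro M
    unfold ntr
    rw [Finset.sum_eq_single v] <;> simp +contextual [eq_comm]
  have h1 := ip.ntr_emb_pm h (Matrix.single v u (1 : ℂ))
  have h2 := sum_ntr_blk h (embL h (Matrix.single v u (1 : ℂ)) * ip.pm m)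
  simp only [blk_embL_mul, hE] at h2
  rw [← Finset.sum_div, h1, hE] at h2
  field_simp at h2
  exact h2.symm

lemma offd_pm_mono {n m : ℕ} (h : n ≤ m) (j : Fin n) :
    offd j (ip.pm n) ≤ offd (Fin.castLE h j) (ip.pm m) := by
  have hm := card_pos B m
  have hn := card_pos B n
  have key := sum_blk_le h
    (fun u v => if u (Fin.castLE h j) = v (Fin.castLE h j) then 0 else ‖ip.pm m u v‖ ^ 2)
    (fun u v => by positivity)
  have step : (Fintype.card (Lv B m) : ℝ) *
      (∑ u, ∑ v, if u j = v j then 0 else ‖ip.pm n u v‖ ^ 2) ≤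
      ∑ w : Lv B m, ∑ u : Lv B n, ∑ v : Lv B n,
        if glue u w (Fin.castLE h j) = glue v w (Fin.castLE h j) then 0
          else ‖ip.pm m (glue u w) (glue v w)‖ ^ 2 := by
    conv_rhs => rw [Finset.sum_comm]
    rw [Finset.mul_sum]
    refine Finset.sum_le_sum fun u _ => ?_
    conv_rhs => rw [Finset.sum_comm]
    rw [Finset.mul_sum]
    refine Finset.sum_le_sum fun v _ => ?_
    have hg : ∀ (x : Lv B n) (w : Lv B m), glue x w (Fin.castLE h j) = x j := fun x w =>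
      glue_lo x w (Fin.castLE h j) j.isLt
    simp only [hg]
    by_cases huv : u j = v j
    · simp [huv]
    · simp only [if_neg huv]
      have e := congrArg norm (ip.pm_eq_avg h u v)
      rw [norm_mul, Complex.norm_natCast] at e
      have hb : (Fintype.card (Lv B m) : ℝ) * ‖ip.pm n u v‖
          ≤ ∑ w, ‖ip.pm m (glue u w) (glue v w)‖ := e ▸ norm_sum_le _ _
      have hsq := sq_sum_le_card_mul_sum_sq (s := (univ : Finset (Lv B m)))
        (f := fun w => ‖ip.pm m (glue u w) (glue v w)‖)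
      rw [Finset.card_univ] at hsq
      have := (pow_le_pow_left₀ (by positivity) hb 2).trans hsq
      rw [mul_pow, sq (Fintype.card (Lv B m) : ℝ), mul_assoc] at this
      exact le_of_mul_le_mul_left this hm
  have := step.trans key
  unfold offd
  rw [div_le_div_iff₀ hn hm]
  linarith

/-- The element at site `j`, seen at level `j + 1`. -/
lemma site_comm (j : ℕ) (M : Matrix (Site j (B j)) (Site j (B j)) ℂ)
    (hM : M * jMat j (B j) = jMat j (B j) * M) :
    lift (s := fun i : Fin (j + 1) => B i) (Fin.last j) M * tMat (fun i : Fin (j + 1) => B i)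
      = tMat (fun i : Fin (j + 1) => B i) * lift (s := fun i : Fin (j + 1) => B i) (Fin.last j) M :=
  lift_comm_tMat (fun i : Fin (j + 1) => B i) (Fin.last j) M hM

lemma offd_pm_le {n : ℕ} (j : Fin n) : offd j (ip.pm n) ≤ siteK j / (B j + 1) := by
  set g := lift (s := fun i : Fin (j.val + 1) => B i) (Fin.last j) (gMat j (B j)) with hg
  set c := lift (s := fun i : Fin (j.val + 1) => B i) (Fin.last j) (cMat j (B j)) with hc
  set g2 := lift (s := fun i : Fin (j.val + 1) => B i) (Fin.last j)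
    ((gMat j (B j))ᴴ * gMat j (B j) + gMat j (B j) * (gMat j (B j))ᴴ) with hg2
  set L := 1 + ‖md.L _ g‖ + ‖md.L _ c‖ with hL
  set Lg := √(fro g) + √(fro g2) with hLg
  have hbound : ∀ m, n ≤ m → offd j (ip.pm n) ≤ siteK j / (B j + 1) +
      (12 * 16 ^ dimSite j * Lg * √((L * ip.dist' m) ^ 2)
        + 4 * 4 ^ B j * (L * ip.dist' m) ^ 2) := by
    intro m hm
    refine (ip.offd_pm_mono hm j).trans ?_
    have hj : j.val + 1 ≤ m := le_trans j.isLt hm
    have eG : gLift B (Fin.castLE hm j) = embL hj g := by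
      rw [hg, embL_lift_last]; rfl
    have eC : cLift B (Fin.castLE hm j) = embL hj c := by
      rw [hc, embL_lift_last]; rfl
    have e2 : (gLift B (Fin.castLE hm j))ᴴ * gLift B (Fin.castLE hm j)
        + gLift B (Fin.castLE hm j) * (gLift B (Fin.castLE hm j))ᴴ = embL hj g2 := by
      rw [hg2, embL_lift_last, gLift, lift_conjTranspose, lift_mul, lift_mul, ← lift_add]
      rfl
    have hd := ip.dist'_nonneg m
    have n0 := norm_nonneg (md.L (j.val + 1) g)
    have n1 := norm_nonneg (md.L (j.val + 1) c)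
    have hemb : ∀ x : Matrix (Lv B (j.val + 1)) (Lv B (j.val + 1)) ℂ, nsq (embL hj x) ≤ fro x := fun x => by
      have := nsq_embL_mul_le hj x 1
      rwa [mul_one, nsq_one, mul_one] at this
    refine offd_le _ _ (ip.pm_herm m) (ip.pm_row_le m) ?_ ?_ ?_ ?_ ?_
    · refine (ip.nsq_idem_le m).trans ?_
      gcongr
      exact le_mul_of_one_le_left hd (by rw [hL]; linarith)
    · rw [eG]
      refine (ip.near_inv_emb hj g (site_comm _ _ (gMat_comm _ _))).trans ?_
      gcongr; rw [hL]; linarith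
    · rw [eC]
      refine (ip.near_inv_emb hj c (site_comm _ _ (cMat_comm _ _))).trans ?_
      gcongr; rw [hL]; linarith
    · rw [e2]
      exact (Real.sqrt_le_sqrt (hemb g2)).trans (by rw [hLg]; linarith [Real.sqrt_nonneg (fro g)])
    · rw [eG]
      exact (Real.sqrt_le_sqrt (hemb g)).trans (by rw [hLg]; linarith [Real.sqrt_nonneg (fro g2)])
  have hlim : Tendsto (fun m => siteK j / (B j + 1) +
      (12 * 16 ^ dimSite j * Lg * √((L * ip.dist' m) ^ 2)
        + 4 * 4 ^ B j * (L * ip.dist' m) ^ 2)) atTop (𝓝 (siteK j / (B j + 1))) := by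
    have h1 : Tendsto (fun m => (L * ip.dist' m) ^ 2) atTop (𝓝 0) := by
      simpa using ((tendsto_const_nhds (x := L)).mul ip.tendsto_dist').pow 2
    have h2 := (tendsto_const_nhds (x := siteK j / ((B j : ℝ) + 1))).add
      (((tendsto_const_nhds (x := 12 * (16 : ℝ) ^ dimSite j * Lg)).mul h1.sqrt).add
        ((tendsto_const_nhds (x := 4 * (4 : ℝ) ^ B j)).mul h1))
    simpa using h2
  exact ge_of_tendsto hlim (Filter.eventually_atTop.2 ⟨n, fun m hm => hbound m hm⟩)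

end InvProj

end

end Vale.Agent.P131
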