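import Vale.Agent.P131.Basic

/-!
# Almost invariant almost projections do not see the prefix

The exact case is a threshold lemma for invariant subspaces of a sum of commuting nilpotent
matrices. The approximate case follows by compactness.
-/

namespace Vale.Agent.P131

open scoped Matrix ComplexConjugate
open Finset

noncomputable section

section Lift

variable {n : ℕ} {s : Fin n → ℕ}

theorem lift_apply_update (i : Fin n) (M : Matrix (Site i (s i)) (Site i (s i)) ℂ) (u : Idx s)
    (y : Site i (s i)) : lift i M u (Function.update u i y) = M (u i) y := by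
  unfold lift
  rw [if_pos (fun k hk => (Function.update_of_ne hk _ _).symm), Function.update_self]

theorem lift_apply_ne (i : Fin n) (M : Matrix (Site i (s i)) (Site i (s i)) ℂ) (u v : Idx s)
    (h : ¬ ∀ k, k ≠ i → u k = v k) : lift i M u v = 0 := if_neg h

theorem eq_update_of_agree {i : Fin n} {u v : Idx s} (h : ∀ k, k ≠ i → u k = v k) :
    v = Function.update u i (v i) := by
  funext k
  by_cases hk : k = i
  · subst hk; rw [Function.update_self]
  · rw [Function.update_of_ne hk, h k hk]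

theorem lift_mul_apply (i : Fin n) (M : Matrix (Site i (s i)) (Site i (s i)) ℂ)
    (X : Matrix (Idx s) (Idx s) ℂ) (u v : Idx s) :
    (lift i M * X) u v = ∑ y, M (u i) y * X (Function.update u i y) v := by
  rw [Matrix.mul_apply]
  have hinj : Function.Injective fun y : Site i (s i) => Function.update u i y :=
    fun a b h => by simpa using congrFun h i
  rw [← Finset.sum_subset (Finset.subset_univ (univ.image fun y => Function.update u i y)),
    Finset.sum_image fun a _ b _ h => hinj h]
  · simp [lift_apply_update]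
  · intro w _ hw
    rw [lift_apply_ne, zero_mul]
    intro h
    exact hw (mem_image.2 ⟨w i, mem_univ _, (eq_update_of_agree h).symm⟩)

theorem lift_mul (i : Fin n) (M M' : Matrix (Site i (s i)) (Site i (s i)) ℂ) :
    lift i M * lift i M' = lift i (M * M') := by
  ext u v
  rw [lift_mul_apply]
  by_cases h : ∀ k, k ≠ i → u k = v k
  · rw [lift, if_pos h, Matrix.mul_apply]
    refine sum_congr rfl fun y _ => ?_
    rw [lift, if_pos (fun k hk => by rw [Function.update_of_ne hk]; exact h k hk),
      Function.update_self]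
  · rw [lift_apply_ne _ _ _ _ h]
    refine sum_eq_zero fun y _ => ?_
    rw [lift_apply_ne, mul_zero]
    exact fun hy => h fun k hk => by simpa [Function.update_of_ne hk] using hy k hk

theorem lift_one (i : Fin n) : lift i (1 : Matrix (Site i (s i)) (Site i (s i)) ℂ) = 1 := by
  ext u v
  by_cases h : ∀ k, k ≠ i → u k = v k
  · rw [lift, if_pos h, Matrix.one_apply, Matrix.one_apply]
    by_cases e : u i = v i
    · rw [if_pos e, if_pos]
      funext k
      by_cases hk : k = i
      · subst hk; exact e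
      · exact h k hk
    · rw [if_neg e, if_neg]
      exact fun huv => e (congrFun huv i)
  · rw [lift_apply_ne _ _ _ _ h, Matrix.one_apply_ne]
    exact fun huv => h fun k _ => congrFun huv k

theorem lift_pow (i : Fin n) (M : Matrix (Site i (s i)) (Site i (s i)) ℂ) :
    ∀ m : ℕ, lift i M ^ m = lift i (M ^ m)
  | 0 => by rw [pow_zero, pow_zero, lift_one]
  | m + 1 => by rw [pow_succ, pow_succ, lift_pow i M m, lift_mul]

theorem lift_zero (i : Fin n) : lift i (0 : Matrix (Site i (s i)) (Site i (s i)) ℂ) = 0 := by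
  ext u v
  simp [lift]

theorem lift_mul_lift_apply {i k : Fin n} (hik : i ≠ k)
    (M : Matrix (Site i (s i)) (Site i (s i)) ℂ) (N : Matrix (Site k (s k)) (Site k (s k)) ℂ)
    (u v : Idx s) :
    (lift i M * lift k N) u v
      = if ∀ l, l ≠ i → l ≠ k → u l = v l then M (u i) (v i) * N (u k) (v k) else 0 := by
  rw [lift_mul_apply, sum_eq_single (v i)]
  · by_cases h : ∀ l, l ≠ i → l ≠ k → u l = v l
    · rw [if_pos h, lift, if_pos, Function.update_of_ne hik.symm]
      intro l hl
      by_cases hli : l = i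
      · subst hli; rw [Function.update_self]
      · rw [Function.update_of_ne hli]; exact h l hli hl
    · rw [if_neg h, lift_apply_ne, mul_zero]
      exact fun h' => h fun l hli hlk => by simpa [Function.update_of_ne hli] using h' l hlk
  · intro y _ hy
    rw [lift_apply_ne, mul_zero]
    exact fun h' => hy (by simpa using h' i hik)
  · simp

theorem lift_commute {i k : Fin n} (hik : i ≠ k) (M : Matrix (Site i (s i)) (Site i (s i)) ℂ)
    (N : Matrix (Site k (s k)) (Site k (s k)) ℂ) : Commute (lift i M) (lift k N) := by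
  show lift i M * lift k N = lift k N * lift i M
  ext u v
  rw [lift_mul_lift_apply hik, lift_mul_lift_apply hik.symm]
  by_cases h : ∀ l, l ≠ i → l ≠ k → u l = v l
  · rw [if_pos h, if_pos fun l a b => h l b a, mul_comm]
  · rw [if_neg h, if_neg fun h' => h fun l a b => h' l b a]

end Lift

theorem coef_ne_zero (j k : ℕ) : coef j k ≠ 0 := by simp [coef]

/-- The powers of `jMat`. -/
theorem jMat_pow (j b : ℕ) : ∀ (m : ℕ) (x y : Site j b),
    (jMat j b ^ m) x y
      = if x.1.val + m = y.1.val ∧ x.2 = y.2 then coef j x.2.val ^ m else 0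
  | 0, x, y => by
    simp [Matrix.one_apply, Prod.ext_iff, Fin.ext_iff]
  | m + 1, x, y => by
    rw [pow_succ', Matrix.mul_apply]
    by_cases hx : x.1.val + 1 < dimSite j
    · rw [sum_eq_single ((⟨x.1.val + 1, hx⟩ : Fin (dimSite j)), x.2)]
      · rw [jMat_pow j b m]
        simp only [jMat, true_and, if_true, mul_ite, mul_zero]
        rw [pow_succ']
        exact if_congr (by constructor <;> rintro ⟨a, c⟩ <;> exact ⟨by omega, c⟩) rfl rfl
      · intro w _ hw
        rw [jMat, if_neg, zero_mul]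
        rintro ⟨a, c⟩
        exact hw (Prod.ext (Fin.ext a.symm) c.symm)
      · simp
    · rw [sum_eq_zero, if_neg]
      · rintro ⟨a, -⟩
        have := y.1.isLt
        omega
      · intro w _
        rw [jMat, if_neg, zero_mul]
        rintro ⟨a, -⟩
        have := w.1.isLt
        omega

theorem jMat_pow_dim (j b : ℕ) : jMat j b ^ dimSite j = 0 := by
  ext x y
  rw [jMat_pow, if_neg, Matrix.zero_apply]
  rintro ⟨a, -⟩
  have := y.1.isLt
  omega

theorem sum_pow_eq_zero {R ι : Type*} [Semiring R] [DecidableEq ι] (a : ι → R) (d : ι → ℕ)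
    (hc : ∀ i j, Commute (a i) (a j)) (h : ∀ i, a i ^ d i = 0) (t : Finset ι) :
    (∑ i ∈ t, a i) ^ ((∑ i ∈ t, d i) + 1) = 0 := by
  induction t using Finset.induction_on with
  | empty => simp
  | insert i t hi ih =>
    rw [sum_insert hi, sum_insert hi]
    exact (Commute.sum_right _ _ _ fun j _ => hc i j).add_pow_eq_zero_of_add_le_succ_of_pow_eq_zero
      (h i) ih (by omega)

theorem degSum_eq_sum : ∀ n : ℕ, degSum n = ∑ i : Fin n, dimSite i
  | 0 => by simp [degSum]
  | n + 1 => by rw [Fin.sum_univ_castSucc, degSum_succ, degSum_eq_sum n]; simp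

/-- Columns killed by a power of a sum are killed by a bigger power of the summand. -/
theorem pow_mul_eq_zero_of_add {R : Type*} [Ring R] {T A : R} (hc : Commute T A) {h D m : ℕ}
    (hA : A ^ D = 0) (hm : h + D ≤ m) {f : R} (hf : T ^ h * f = 0) : (T + A) ^ m * f = 0 := by
  rw [hc.add_pow, sum_mul]
  refine sum_eq_zero fun i _ => ?_
  suffices T ^ i * A ^ (m - i) * f = 0 by
    rw [mul_assoc _ _ f, (Nat.cast_commute (m.choose i) f).eq, ← mul_assoc, this, zero_mul]
  rcases le_or_gt h i with hi | hi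
  · obtain ⟨e, rfl⟩ := Nat.exists_eq_add_of_le' hi
    rw [(hc.pow_pow _ _).eq, mul_assoc, pow_add, mul_assoc, hf, mul_zero, mul_zero]
  · rw [pow_eq_zero_of_le (show D ≤ m - i by omega) hA]
    simp

/-- A power of the summand lands in the range of a smaller power of the sum. -/
theorem mul_pow_eq_of_add {R : Type*} [Ring R] {T A : R} (hc : Commute T A) {g D m : ℕ}
    (hA : A ^ D = 0) (hm : g + D ≤ m) {f : R} (hf : f * T ^ g = T ^ g) :
    f * (T + A) ^ m = (T + A) ^ m := by
  rw [hc.add_pow, mul_sum]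
  refine sum_congr rfl fun i _ => ?_
  rcases le_or_gt g i with hi | hi
  · obtain ⟨e, rfl⟩ := Nat.exists_eq_add_of_le hi
    rw [pow_add]
    simp only [← mul_assoc, hf]
  · rw [pow_eq_zero_of_le (show D ≤ m - i by omega) hA]
    simp

section Threshold

variable {ι : Type*} [Fintype ι] [DecidableEq ι]

/-- An invariant projection of a nilpotent matrix lies between a range and a kernel of powers. -/
theorem range_le_le_ker {T f : Matrix ι ι ℂ} {L : ℕ} (hT : T ^ L = 0)
    (hf : ∀ a, a * T = T * a → f * a * f = a * f) :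
    ∃ h, h ≤ L ∧ T ^ h * f = 0 ∧ f * T ^ (L - h) = T ^ (L - h) := by
  classical
  have hex : ∃ h, T ^ h * f = 0 := ⟨L, by rw [hT, zero_mul]⟩
  refine ⟨Nat.find hex, Nat.find_min' hex (by rw [hT, zero_mul]), Nat.find_spec hex, ?_⟩
  set h := Nat.find hex with hh
  rcases Nat.eq_zero_or_pos h with h0 | hpos
  · rw [h0, Nat.sub_zero, hT, mul_zero]
  have hL : h ≤ L := Nat.find_min' hex (by rw [hT, zero_mul])
  have hk : ∀ k, h ≤ k → T ^ k * f = 0 := fun k hk => by
    obtain ⟨e, rfl⟩ := Nat.exists_eq_add_of_le' hk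
    rw [pow_add, mul_assoc, Nat.find_spec hex, mul_zero]
  have hlast : T ^ (h - 1) * f ≠ 0 := Nat.find_min hex (by omega)
  obtain ⟨i0, hlast⟩ := Function.ne_iff.1 hlast
  obtain ⟨j0, hlast⟩ := Function.ne_iff.1 hlast
  set c : ℕ → ℂ := fun k => (T ^ k * f) i0 j0 with hc
  set W : Matrix ι ι ℂ := ∑ k ∈ range L, c k • T ^ (L - 1 - k) with hW
  have hfW : f * W = W := by
    ext x r
    set Y : Matrix ι ι ℂ := Matrix.single r i0 1
    set S : Matrix ι ι ℂ := ∑ k ∈ range L, T ^ (L - 1 - k) * Y * T ^ k with hS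
    have hST : S * T = T * S := by
      have e1 : S * T = ∑ k ∈ range L, T ^ (L - (k + 1)) * Y * T ^ (k + 1) := by
        rw [hS, sum_mul]
        refine sum_congr rfl fun k hk => ?_
        rw [mul_assoc, ← pow_succ, show L - (k + 1) = L - 1 - k by omega]
      have e2 : T * S = ∑ k ∈ range L, T ^ (L - k) * Y * T ^ k := by
        rw [hS, mul_sum]
        refine sum_congr rfl fun k hk => ?_
        have := mem_range.1 hk
        rw [← mul_assoc, ← mul_assoc, ← pow_succ', show L - 1 - k + 1 = L - k by omega]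
      have e3 := sum_range_sub (fun k => T ^ (L - k) * Y * T ^ k) L
      rw [sum_sub_distrib, hT, pow_zero, Nat.sub_zero, hT, zero_mul, zero_mul, mul_zero, sub_zero,
        sub_eq_zero] at e3
      rw [e1, e2]
      exact e3
    have hSf : ∀ y, (S * f) y j0 = W y r := fun y => by
      simp only [hS, hW, sum_mul, Matrix.sum_apply, Matrix.smul_apply, smul_eq_mul, hc]
      refine sum_congr rfl fun k _ => ?_
      rw [mul_assoc, mul_assoc, Matrix.mul_apply, sum_eq_single r]
      · rw [Matrix.single_mul_apply_same, one_mul, mul_comm]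
      · intro w _ hw
        rw [Matrix.single_mul_apply_of_ne (h := hw), mul_zero]
      · simp
    rw [Matrix.mul_apply]
    simp only [← hSf]
    rw [← Matrix.mul_apply, ← mul_assoc, hf S hST]
  set U : Matrix ι ι ℂ := ∑ k ∈ range h, c k • T ^ (h - 1 - k) with hU
  have hWU : W = T ^ (L - h) * U := by
    rw [hW, hU, mul_sum,
      ← sum_subset (range_mono hL) (f := fun k => c k • T ^ (L - 1 - k)) fun k _ hk' => by
        rw [mem_range, not_lt] at hk'
        simp [hc, hk k hk']]
    refine sum_congr rfl fun k hk' => ?_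
    have := mem_range.1 hk'
    rw [mul_smul_comm, ← pow_add, show L - h + (h - 1 - k) = L - 1 - k by omega]
  have hUunit : IsUnit U := by
    obtain ⟨h', hh'⟩ : ∃ h', h = h' + 1 := ⟨h - 1, by omega⟩
    have e : U = c h' • 1 + T * ∑ k ∈ range h', c k • T ^ (h' - 1 - k) := by
      rw [hU, hh', sum_range_succ, add_comm, mul_sum]
      congr 1
      · simp
      · refine sum_congr rfl fun k hk' => ?_
        have := mem_range.1 hk'
        rw [mul_smul_comm, ← pow_succ', show h' - 1 - k + 1 = h' + 1 - 1 - k by omega]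
    have hcne : c h' ≠ 0 := by
      rw [show h' = h - 1 by omega]
      exact hlast
    rw [e]
    refine IsNilpotent.isUnit_add_left_of_commute ?_ ?_ ?_
    · refine Commute.isNilpotent_mul_right ?_ ⟨L, hT⟩
      exact Commute.sum_right _ _ _ fun k _ => (Commute.self_pow T _).smul_right _
    · exact (IsUnit.mk0 _ hcne).map (algebraMap ℂ (Matrix ι ι ℂ)) |> fun h => by
        rwa [Algebra.algebraMap_eq_smul_one] at h
    · exact (Commute.one_right _).smul_right _
  rw [hWU, ← mul_assoc] at hfW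
  exact hUunit.mul_right_cancel hfW

end Threshold

/-- The diagonal projection on last-shift positions below `k`. -/
def lowProj {n : ℕ} (s : Fin (n + 1) → ℕ) (k : ℕ) : Matrix (Idx s) (Idx s) ℂ :=
  Matrix.diagonal fun u => if (u (Fin.last n)).1.val < k then 1 else 0

section Exact

variable {n : ℕ} {s : Fin (n + 1) → ℕ}

theorem lowProj_mul (k : ℕ) (X : Matrix (Idx s) (Idx s) ℂ) (u v : Idx s) :
    (lowProj s k * X) u v = if (u (Fin.last n)).1.val < k then X u v else 0 := by
  rw [lowProj, Matrix.diagonal_mul]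
  split_ifs <;> simp

theorem mul_lowProj (k : ℕ) (X : Matrix (Idx s) (Idx s) ℂ) (u v : Idx s) :
    (X * lowProj s k) u v = if (v (Fin.last n)).1.val < k then X u v else 0 := by
  rw [lowProj, Matrix.mul_diagonal]
  split_ifs <;> simp

theorem lowProj_conjTranspose (k : ℕ) : (lowProj s k : Matrix (Idx s) (Idx s) ℂ)ᴴ = lowProj s k := by
  rw [lowProj, Matrix.diagonal_conjTranspose]
  congr 1
  funext u
  rw [Pi.star_apply]
  split_ifs <;> simp

theorem lowProj_mul_self (k : ℕ) :
    (lowProj s k : Matrix (Idx s) (Idx s) ℂ) * lowProj s k = lowProj s k := by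
  ext u v
  rw [lowProj_mul, lowProj, Matrix.diagonal_apply]
  split_ifs <;> simp_all

/-- Columns of a high power of the last shift. -/
theorem last_pow_apply (m : ℕ) (u v : Idx s) :
    (lift (Fin.last n) (jMat (Fin.last n : ℕ) (s (Fin.last n))) ^ m) u v
      = if (∀ l, l ≠ Fin.last n → u l = v l) ∧
          ((u (Fin.last n)).1.val + m = (v (Fin.last n)).1.val ∧
            (u (Fin.last n)).2 = (v (Fin.last n)).2)
        then coef (Fin.last n : ℕ) (u (Fin.last n)).2.val ^ m else 0 := by
  rw [lift_pow, lift]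
  by_cases h : ∀ l, l ≠ Fin.last n → u l = v l
  · rw [if_pos h, jMat_pow]
    exact if_congr ⟨fun e => ⟨h, e⟩, And.right⟩ rfl rfl
  · rw [if_neg h, if_neg fun h' => h h'.1]

theorem lowProj_mul_eq_of_pow_kill {f : Matrix (Idx s) (Idx s) ℂ} {m : ℕ}
    (h : lift (Fin.last n) (jMat (Fin.last n : ℕ) (s (Fin.last n))) ^ m * f = 0) :
    lowProj s m * f = f := by
  ext w v
  rw [lowProj_mul]
  split_ifs with hw
  · rfl
  push Not at hw
  set u : Idx s := Function.update w (Fin.last n)
    ((⟨(w (Fin.last n)).1.val - m, by omega⟩ : Fin _), (w (Fin.last n)).2) with hu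
  have hul : u (Fin.last n) = ((⟨(w (Fin.last n)).1.val - m, by omega⟩ : Fin _),
      (w (Fin.last n)).2) := Function.update_self ..
  have e := congrFun (congrFun h u) v
  rw [Matrix.mul_apply, sum_eq_single w, last_pow_apply, if_pos, Matrix.zero_apply] at e
  · exact ((mul_eq_zero.1 e).resolve_left (pow_ne_zero _ (coef_ne_zero _ _))).symm
  · refine ⟨fun l hl => Function.update_of_ne hl _ _, ?_, ?_⟩
    · rw [hul]; simp only; omega
    · rw [hul]
  · intro z _ hz
    rw [last_pow_apply, if_neg, zero_mul]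
    rintro ⟨a, b, c⟩
    refine hz ?_
    funext l
    by_cases hl : l = Fin.last n
    · subst hl
      rw [hul] at b c
      exact Prod.ext (Fin.ext (by simp only at b; omega)) c.symm
    · rw [← a l hl, hu, Function.update_of_ne hl]
  · simp

theorem mul_lowProj_eq_of_pow_fix {f : Matrix (Idx s) (Idx s) ℂ} {m : ℕ}
    (h : f * lift (Fin.last n) (jMat (Fin.last n : ℕ) (s (Fin.last n))) ^ m
      = lift (Fin.last n) (jMat (Fin.last n : ℕ) (s (Fin.last n))) ^ m) :
    f * lowProj s (dimSite (Fin.last n : ℕ) - m) = lowProj s (dimSite (Fin.last n : ℕ) - m) := by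
  ext x w
  rw [mul_lowProj]
  split_ifs with hw
  swap
  · rw [lowProj, Matrix.diagonal_apply]
    split_ifs with h1 h2
    · subst h1; exact absurd h2 hw
    all_goals rfl
  set v : Idx s := Function.update w (Fin.last n)
    ((⟨(w (Fin.last n)).1.val + m, by omega⟩ : Fin _), (w (Fin.last n)).2) with hv
  have hvl : v (Fin.last n) = ((⟨(w (Fin.last n)).1.val + m, by omega⟩ : Fin _),
      (w (Fin.last n)).2) := Function.update_self ..
  have col : ∀ z, (lift (Fin.last n) (jMat (Fin.last n : ℕ) (s (Fin.last n))) ^ m) z v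
      = if z = w then coef (Fin.last n : ℕ) (w (Fin.last n)).2.val ^ m else 0 := fun z => by
    rw [last_pow_apply]
    by_cases hz : z = w
    · subst hz
      rw [if_pos rfl, if_pos]
      exact ⟨fun l hl => (Function.update_of_ne hl _ _).symm, by rw [hvl], by rw [hvl]⟩
    · rw [if_neg hz, if_neg]
      rintro ⟨a, b, c⟩
      refine hz ?_
      funext l
      by_cases hl : l = Fin.last n
      · subst hl
        rw [hvl] at b c
        exact Prod.ext (Fin.ext (by simp only at b; omega)) c
      · rw [a l hl, hv, Function.update_of_ne hl]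
  have e := congrFun (congrFun h x) v
  rw [Matrix.mul_apply, sum_eq_single w (fun z _ hz => by rw [col, if_neg hz, mul_zero]) (by simp),
    col, col, if_pos rfl] at e
  rw [lowProj, Matrix.diagonal_apply]
  by_cases hxw : x = w
  · subst hxw
    rw [if_pos rfl] at e
    rw [if_pos rfl, if_pos hw]
    exact mul_right_cancel₀ (pow_ne_zero _ (coef_ne_zero _ _)) (e.trans (one_mul _).symm)
  · rw [if_neg hxw] at e
    rw [if_neg hxw]
    exact (mul_eq_zero.1 e).resolve_right (pow_ne_zero _ (coef_ne_zero _ _))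

/-- The exact threshold statement: an invariant projection is squeezed between two thresholds of
the last site that differ by `3 * (degSum n + 1)`. -/
theorem squeeze {f : Matrix (Idx s) (Idx s) ℂ}
    (hf : ∀ a, a * tMat s = tMat s * a → f * a * f = a * f) :
    ∃ k m : ℕ, m ≤ k + 3 * (degSum n + 1) ∧ k ≤ dimSite n ∧
      lowProj s m * f = f ∧ f * lowProj s k = lowProj s k := by
  set D := degSum n + 1 with hD
  set d := dimSite n with hd
  set X := lift (Fin.last n) (jMat (Fin.last n : ℕ) (s (Fin.last n))) with hX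
  set A := ∑ i : Fin n, lift i.castSucc (jMat (i.castSucc : ℕ) (s i.castSucc)) with hA
  have hT : tMat s = A + X := Fin.sum_univ_castSucc _
  have hXd : X ^ d = 0 := by
    rw [hX, hd, lift_pow, show dimSite n = dimSite (Fin.last n : ℕ) by rw [Fin.val_last],
      jMat_pow_dim, lift_zero]
  have hAD : A ^ D = 0 := by
    rw [hD, degSum_eq_sum, hA]
    refine sum_pow_eq_zero _ _ (fun i j => ?_) (fun i => ?_) univ
    · by_cases hij : i = j
      · subst hij; exact Commute.refl _
      · exact lift_commute (fun h => hij (Fin.castSucc_injective n h)) _ _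
    · rw [lift_pow, show dimSite (i : ℕ) = dimSite (i.castSucc : ℕ) by rw [Fin.val_castSucc],
        jMat_pow_dim, lift_zero]
  have hcAX : Commute A X := Commute.sum_left _ _ _ fun i _ =>
    lift_commute (Fin.castSucc_ne_last i) _ _
  have hTL : tMat s ^ (D + d) = 0 := by
    rw [hT]
    exact hcAX.add_pow_eq_zero_of_add_le_succ_of_pow_eq_zero hAD hXd (by omega)
  obtain ⟨h, hh, h1, h2⟩ := range_le_le_ker hTL hf
  have hcT : Commute (tMat s) (-A) := by
    rw [hT]
    exact ((Commute.refl A).add_left hcAX.symm).neg_right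
  have hX' : tMat s + -A = X := by rw [hT]; abel
  have hA' : (-A) ^ D = 0 := by rw [neg_pow, hAD, mul_zero]
  have k1 := pow_mul_eq_zero_of_add hcT hA' (le_refl (h + D)) h1
  have k2 := mul_pow_eq_of_add hcT hA' (le_refl (D + d - h + D)) h2
  rw [hX'] at k1 k2
  refine ⟨d - (D + d - h + D), h + D, by omega, Nat.sub_le _ _,
    lowProj_mul_eq_of_pow_kill k1, ?_⟩
  have := mul_lowProj_eq_of_pow_fix k2
  rwa [Fin.val_last] at this

end Exact

section Trace

variable {ι : Type*} [Fintype ι]

theorem nsq_eq_ntr (X : Matrix ι ι ℂ) : (nsq X : ℂ) = ntr (Xᴴ * X) := by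
  simp only [nsq, ntr, Matrix.mul_apply, Matrix.conjTranspose_apply, Complex.ofReal_div,
    Complex.ofReal_sum, Complex.ofReal_natCast, Complex.ofReal_pow]
  rw [sum_comm]
  congr 1
  refine sum_congr rfl fun x _ => sum_congr rfl fun y _ => ?_
  rw [← Complex.conj_mul']
  rfl

theorem norm_ntr_mul_le {Z r : Matrix ι ι ℂ} (hZ : ∀ z, nsq (Z * z) ≤ nsq z)
    (hrr : r * r = r) : ‖ntr (r * Z)‖ ≤ nsq r := by
  have e : ntr (r * Z) = ntr (Z * r * r) := by
    rw [mul_assoc, hrr]
    simp only [ntr, Matrix.mul_apply]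
    rw [sum_comm]
    simp only [mul_comm]
  have h1 : nsq (Z * r) ≤ nsq r := hZ r
  have h2 : ‖∑ x, (Z * r * r) x x‖
      ≤ ((∑ x, ∑ y, ‖(Z * r) x y‖ ^ 2) + ∑ x, ∑ y, ‖r x y‖ ^ 2) / 2 := by
    simp only [Matrix.mul_apply (M := Z * r)]
    rw [sum_comm (f := fun x y => ‖r x y‖ ^ 2), ← sum_add_distrib, sum_div]
    refine (norm_sum_le _ _).trans (sum_le_sum fun x _ => ?_)
    rw [← sum_add_distrib, sum_div]
    refine (norm_sum_le _ _).trans (sum_le_sum fun y _ => ?_)
    rw [norm_mul]
    nlinarith [sq_nonneg (‖(Z * r) x y‖ - ‖r y x‖)]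
  rw [e]
  simp only [ntr, nsq, norm_div, Complex.norm_natCast] at h1 ⊢
  refine le_trans (div_le_div_of_nonneg_right h2 (Nat.cast_nonneg _)) ?_
  rw [add_div, add_div, div_right_comm, div_right_comm _ (2 : ℝ)]
  linarith

theorem ntr_sub (X Y : Matrix ι ι ℂ) : ntr (X - Y) = ntr X - ntr Y := by
  simp [ntr, sub_div]

end Trace

section Prefix

variable {n : ℕ} {s : Fin (n + 1) → ℕ}

theorem sum_last_mul (φ : Site (Fin.last n : ℕ) (s (Fin.last n)) → ℂ) (ψ : Idx s → ℂ)
    (hψ : ∀ u u', (∀ i : Fin n, u i.castSucc = u' i.castSucc) → ψ u = ψ u') :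
    (∑ u : Idx s, φ (u (Fin.last n)) * ψ u) * Fintype.card (Idx s)
      = (∑ u : Idx s, φ (u (Fin.last n))) * ∑ u, ψ u := by
  let e := Fin.snocEquiv fun i : Fin (n + 1) => Site i (s i)
  set a0 : Site (Fin.last n : ℕ) (s (Fin.last n)) := (0, 0)
  set G : ((i : Fin n) → Site i.castSucc (s i.castSucc)) → ℂ := fun p => ψ (e (a0, p)) with hG
  have el : ∀ x, e x (Fin.last n) = x.1 := fun x => by simp [e]
  have hz : ∀ x, ψ (e x) = G x.2 := fun x => hψ _ _ fun i => by simp [e]
  have A : ∀ (g : Site (Fin.last n : ℕ) (s (Fin.last n)) → ℂ)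
      (h : ((i : Fin n) → Site i.castSucc (s i.castSucc)) → ℂ),
      ∑ x : Site (Fin.last n : ℕ) (s (Fin.last n)) × _, g x.1 * h x.2 = (∑ a, g a) * ∑ p, h p :=
    fun g h => by rw [sum_mul_sum, Fintype.sum_prod_type]
  have A1 := A φ (fun _ => 1)
  have A2 := A (fun _ => 1) G
  simp only [mul_one, one_mul, sum_const, card_univ, nsmul_one] at A1 A2
  rw [← Equiv.sum_comp e, ← Equiv.sum_comp e fun u => φ (u (Fin.last n)), ← Equiv.sum_comp e ψ,
    ← Fintype.card_congr e, Fintype.card_prod, Nat.cast_mul]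
  simp only [el, hz]
  rw [A φ G, A1, A2]
  ring

theorem ntr_lowProj_mul {Z : Matrix (Idx s) (Idx s) ℂ} (hZ : LastFree Z) (k : ℕ) :
    ntr (lowProj s k * Z) = ntr (lowProj s k) * ntr Z := by
  have hN : (Fintype.card (Idx s) : ℂ) ≠ 0 := Nat.cast_ne_zero.2 Fintype.card_ne_zero
  have h := sum_last_mul (s := s) (fun a => if a.1.val < k then 1 else 0) (fun u => Z u u)
    fun u u' hu => hZ.2 _ _ _ _ rfl rfl hu hu
  simp only [ite_mul, one_mul, zero_mul] at h
  simp only [ntr, lowProj_mul]
  simp only [lowProj, Matrix.diagonal_apply_eq]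
  rw [div_mul_div_comm, ← h]
  field_simp

theorem ntr_lowProj (k : ℕ) :
    ntr (lowProj s k) = ((min k (dimSite n) : ℕ) : ℂ) / dimSite n := by
  let e := Fin.snocEquiv fun i : Fin (n + 1) => Site i (s i)
  have el : ∀ a p, e (a, p) (Fin.last n) = a := fun a p => by simp [e]
  have hd : (dimSite (Fin.last n : ℕ) : ℂ) ≠ 0 := Nat.cast_ne_zero.2 (dimSite_pos _).ne'
  have hN : (Fintype.card ((i : Fin n) → Site i.castSucc (s i.castSucc)) : ℂ) ≠ 0 :=
    Nat.cast_ne_zero.2 Fintype.card_ne_zero
  have hb : ((s (Fin.last n) : ℂ) + 1) ≠ 0 := Nat.cast_add_one_ne_zero _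
  simp only [ntr, lowProj, Matrix.diagonal_apply_eq]
  rw [← Equiv.sum_comp e, ← Fintype.card_congr e, Fintype.card_prod]
  have key : ∑ a : Site (Fin.last n : ℕ) (s (Fin.last n)), (if a.1.val < k then (1 : ℂ) else 0)
      = ((min (dimSite (Fin.last n : ℕ)) k : ℕ) : ℂ) * ((s (Fin.last n) : ℂ) + 1) := by
    rw [Fintype.sum_prod_type_right]
    simp only [sum_const, card_univ, nsmul_eq_mul, sum_boole, Fin.card_filter_val_lt,
      Fintype.card_fin, Nat.cast_add, Nat.cast_one]
    ring
  rw [Fintype.sum_prod_type]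
  simp only [el, sum_const, card_univ, nsmul_eq_mul, ← mul_sum, key, Fintype.card_prod,
    Fintype.card_fin, Nat.cast_mul, Nat.cast_add, Nat.cast_one]
  rw [show dimSite n = dimSite (Fin.last n : ℕ) by rw [Fin.val_last], min_comm]
  field_simp

end Prefix

/-- The exact case. -/
theorem exact_case {n : ℕ} {s : Fin (n + 1) → ℕ} {f Z : Matrix (Idx s) (Idx s) ℂ}
    (hH : fᴴ = f) (hff : f * f = f) (hf : ∀ a, a * tMat s = tMat s * a → f * a * f = a * f)
    (hZ : LastFree Z) (hZc : ∀ z, nsq (Z * z) ≤ nsq z) :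
    ‖ntr (f * Z) - ntr f * ntr Z‖ ≤ 6 * (1 / 2 : ℝ) ^ n := by
  obtain ⟨k, m, hkm, hkd, hm, hk⟩ := squeeze hf
  set P : Matrix (Idx s) (Idx s) ℂ := lowProj s k
  set Q : Matrix (Idx s) (Idx s) ℂ := lowProj s m
  have hP : Pᴴ = P := lowProj_conjTranspose k
  have hQ : Qᴴ = Q := lowProj_conjTranspose m
  have hk' : P * f = P := by
    simpa [Matrix.conjTranspose_mul, hP, hH] using congrArg Matrix.conjTranspose hk
  have hm' : f * Q = f := by
    simpa [Matrix.conjTranspose_mul, hQ, hH] using congrArg Matrix.conjTranspose hm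
  have r_idem : (f - P) * (f - P) = f - P := by
    rw [sub_mul, mul_sub, mul_sub, hff, hk, hk', lowProj_mul_self]
    abel
  have q_idem : (Q - f) * (Q - f) = Q - f := by
    rw [sub_mul, mul_sub, mul_sub, hff, hm, hm', lowProj_mul_self]
    abel
  have tr_proj : ∀ X : Matrix (Idx s) (Idx s) ℂ, Xᴴ = X → X * X = X → (nsq X : ℂ) = ntr X :=
    fun X a b => by rw [nsq_eq_ntr, a, b]
  have r0 := tr_proj (f - P) (by rw [Matrix.conjTranspose_sub, hH, hP]) r_idem
  have q0 := tr_proj (Q - f) (by rw [Matrix.conjTranspose_sub, hH, hQ]) q_idem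
  have hb : nsq (f - P) ≤ 3 * (1 / 2 : ℝ) ^ n := by
    have e : ((nsq (f - P) + nsq (Q - f) : ℝ) : ℂ)
        = (((min m (dimSite n) : ℕ) : ℝ) / dimSite n - ((min k (dimSite n) : ℕ) : ℝ) / dimSite n
          : ℝ) := by
      rw [Complex.ofReal_add, Complex.ofReal_sub, Complex.ofReal_div, Complex.ofReal_div,
        Complex.ofReal_natCast, Complex.ofReal_natCast, Complex.ofReal_natCast]
      rw [r0, q0, ← ntr_lowProj (s := s) m, ← ntr_lowProj (s := s) k, ntr_sub, ntr_sub]
      ring
    have e' := Complex.ofReal_injective e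
    have q1 : 0 ≤ nsq (Q - f) := by unfold nsq; positivity
    have hd : (0 : ℝ) < dimSite n := Nat.cast_pos.2 (dimSite_pos n)
    have hle : ((min m (dimSite n) : ℕ) : ℝ)
        ≤ ((min k (dimSite n) : ℕ) : ℝ) + 3 * ((degSum n : ℝ) + 1) := by
      exact_mod_cast show min m (dimSite n) ≤ min k (dimSite n) + 3 * (degSum n + 1) by omega
    calc nsq (f - P) ≤ (((min m (dimSite n) : ℕ) : ℝ) - ((min k (dimSite n) : ℕ) : ℝ))
          / dimSite n := by rw [sub_div]; linarith
      _ ≤ 3 * ((degSum n : ℝ) + 1) / dimSite n := div_le_div_of_nonneg_right (by linarith) hd.le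
      _ = 3 * (1 / 2 : ℝ) ^ n := by
        simp only [dimSite, one_div, inv_pow]
        push_cast
        field_simp
  have e : ntr (f * Z) - ntr f * ntr Z = ntr ((f - P) * Z) - ntr (f - P) * ntr Z := by
    rw [sub_mul, ntr_sub, ntr_sub, ntr_lowProj_mul hZ]
    ring
  rw [e]
  refine (norm_sub_le _ _).trans ?_
  have n1 := norm_ntr_mul_le hZc r_idem
  have n2 : ‖ntr Z‖ ≤ 1 := by
    have := norm_ntr_mul_le hZc (one_mul (1 : Matrix (Idx s) (Idx s) ℂ))
    rw [one_mul] at this
    refine this.trans (le_of_eq (Complex.ofReal_injective ?_))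
    rw [tr_proj 1 Matrix.conjTranspose_one (one_mul _), Complex.ofReal_one]
    simp only [ntr, Matrix.one_apply_eq, sum_const, card_univ, nsmul_one]
    exact div_self (Nat.cast_ne_zero.2 Fintype.card_ne_zero)
  have n3 : ‖ntr (f - P)‖ ≤ nsq (f - P) := by
    rw [← r0, Complex.norm_real, Real.norm_eq_abs, abs_of_nonneg]
    unfold nsq; positivity
  rw [norm_mul]
  have := mul_le_mul n3 n2 (norm_nonneg _) (le_trans (norm_nonneg _) n3)
  linarith

theorem norm_apply_le_of_contraction {ι : Type*} [Fintype ι] [DecidableEq ι] {Z : Matrix ι ι ℂ}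
    (hZ : ∀ z, nsq (Z * z) ≤ nsq z) (x y : ι) : ‖Z x y‖ ≤ 1 := by
  have h := hZ (Matrix.single y y 1)
  simp only [nsq] at h
  rw [div_le_div_iff_of_pos_right (Nat.cast_pos.2 (Fintype.card_pos_iff.2 ⟨x⟩))] at h
  have hr : ∑ a, ∑ b, ‖Matrix.single y y (1 : ℂ) a b‖ ^ 2 = 1 := by
    simp [Matrix.single, apply_ite, ite_and]
  have hl : ‖Z x y‖ ^ 2 ≤ ∑ a, ∑ b, ‖(Z * Matrix.single y y (1 : ℂ)) a b‖ ^ 2 := by
    refine le_trans ?_ (single_le_sum (fun a _ => sum_nonneg fun b _ => sq_nonneg _) (mem_univ x))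
    refine le_trans ?_ (single_le_sum (fun b _ => sq_nonneg _) (mem_univ y))
    rw [Matrix.mul_single_apply_same, mul_one]
  rw [hr] at h
  nlinarith [norm_nonneg (Z x y)]

theorem nsq_nonneg' {ι : Type*} [Fintype ι] (X : Matrix ι ι ℂ) : 0 ≤ nsq X := by
  unfold nsq; positivity

theorem eq_zero_of_nsq {ι : Type*} [Fintype ι] {X : Matrix ι ι ℂ} (h : nsq X = 0) : X = 0 := by
  ext x y
  rcases isEmpty_or_nonempty ι with hι | hι
  · exact isEmptyElim x
  have hc : (Fintype.card ι : ℝ) ≠ 0 := Nat.cast_ne_zero.2 Fintype.card_ne_zero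
  simp only [nsq, div_eq_zero_iff, hc, or_false] at h
  rw [sum_eq_zero_iff_of_nonneg fun a _ => sum_nonneg fun b _ => sq_nonneg _] at h
  have := (sum_eq_zero_iff_of_nonneg fun b _ => sq_nonneg _).1 (h x (mem_univ x)) y (mem_univ y)
  simpa using this

theorem goalFinite : GoalFinite := by
  intro n s
  classical
  set C := Subalgebra.toSubmodule (Subalgebra.centralizer ℂ ({tMat s} : Set (Matrix (Idx s) (Idx s) ℂ)))
    with hC
  have hmem : ∀ a, a ∈ C ↔ a * tMat s = tMat s * a := fun a => by
    simp [hC, Subalgebra.mem_centralizer_iff, eq_comm]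
  obtain ⟨S, hS⟩ : C.FG := IsNoetherian.noetherian C
  have hSmem : ∀ a ∈ S, a * tMat s = tMat s * a := fun a ha =>
    (hmem a).1 (hS ▸ Submodule.subset_span ha)
  set K : Set ((Idx s → Idx s → ℂ) × (Idx s → Idx s → ℂ)) :=
    (Set.univ.pi fun _ => Set.univ.pi fun _ => Metric.closedBall 0 1) ×ˢ
      (Set.univ.pi fun _ => Set.univ.pi fun _ => Metric.closedBall 0 1) with hK
  set Bad : Set (Matrix (Idx s) (Idx s) ℂ × Matrix (Idx s) (Idx s) ℂ) :=
    K ∩ {p | p.1ᴴ = p.1 ∧ LastFree p.2 ∧ (∀ z, nsq (p.2 * z) ≤ nsq z) ∧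
      10 * (1 / 2 : ℝ) ^ n ≤ ‖ntr (p.1 * p.2) - ntr p.1 * ntr p.2‖} with hBad
  have hKc : IsCompact K :=
    (isCompact_univ_pi fun _ => isCompact_univ_pi fun _ => isCompact_closedBall _ _).prod
      (isCompact_univ_pi fun _ => isCompact_univ_pi fun _ => isCompact_closedBall _ _)
  have hcl : IsClosed {p : Matrix (Idx s) (Idx s) ℂ × Matrix (Idx s) (Idx s) ℂ |
      p.1ᴴ = p.1 ∧ LastFree p.2 ∧ (∀ z, nsq (p.2 * z) ≤ nsq z) ∧
      10 * (1 / 2 : ℝ) ^ n ≤ ‖ntr (p.1 * p.2) - ntr p.1 * ntr p.2‖} := by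
    simp only [LastFree, Set.ofPred_and, Set.ofPred_forall]
    refine (isClosed_eq (by fun_prop) (by fun_prop)).inter (IsClosed.inter ?_ (IsClosed.inter ?_ ?_))
    · refine IsClosed.inter ?_ ?_
      · exact isClosed_iInter fun u => isClosed_iInter fun v => isClosed_iInter fun _ =>
          isClosed_eq (by fun_prop) continuous_const
      · exact isClosed_iInter fun u => isClosed_iInter fun v => isClosed_iInter fun u' =>
          isClosed_iInter fun v' => isClosed_iInter fun _ => isClosed_iInter fun _ =>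
          isClosed_iInter fun _ => isClosed_iInter fun _ => isClosed_eq (by fun_prop) (by fun_prop)
    · exact isClosed_iInter fun z => isClosed_le (by unfold nsq; fun_prop) continuous_const
    · exact isClosed_le continuous_const (by unfold ntr; fun_prop)
  have hBc : IsCompact Bad := hKc.inter_right hcl
  set F : Matrix (Idx s) (Idx s) ℂ × Matrix (Idx s) (Idx s) ℂ → ℝ := fun p =>
    nsq (p.1 * p.1 - p.1) + ∑ a ∈ S, nsq (p.1 * a * p.1 - a * p.1) with hF
  have hFc : Continuous F := by unfold nsq at hF; rw [hF]; fun_prop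
  have hFpos : ∀ p ∈ Bad, 0 < F p := by
    rintro p ⟨-, hH, hLF, hZc, hbig⟩
    have t0 : 0 ≤ ∑ a ∈ S, nsq (p.1 * a * p.1 - a * p.1) := sum_nonneg fun a _ => nsq_nonneg' _
    by_contra hle
    push Not at hle
    simp only [hF] at hle
    have f0 := nsq_nonneg' (p.1 * p.1 - p.1)
    have hff := sub_eq_zero.1 (eq_zero_of_nsq (X := p.1 * p.1 - p.1) (by linarith))
    have hfa : ∀ a ∈ S, p.1 * a * p.1 = a * p.1 := fun a ha => sub_eq_zero.1 <| eq_zero_of_nsq <| by
      have := (sum_eq_zero_iff_of_nonneg fun b _ => nsq_nonneg' (p.1 * b * p.1 - b * p.1)).1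
        (le_antisymm (by linarith) t0) a ha
      exact this
    have hlin : ∀ a, a * tMat s = tMat s * a → p.1 * a * p.1 = a * p.1 := by
      intro a ha
      have ha' : a ∈ Submodule.span ℂ (S : Set (Matrix (Idx s) (Idx s) ℂ)) := by
        rw [hS]; exact (hmem a).2 ha
      clear ha
      induction ha' using Submodule.span_induction with
      | mem x hx => exact hfa x hx
      | zero => simp
      | add x y _ _ hx hy => rw [mul_add, add_mul, hx, hy, add_mul]
      | smul c x _ hx => rw [mul_smul_comm, smul_mul_assoc, hx, smul_mul_assoc]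
    have := exact_case hH hff hlin hLF hZc
    have hp : (0 : ℝ) < (1 / 2 : ℝ) ^ n := by positivity
    linarith
  obtain ⟨δ, hδ, hδF⟩ : ∃ δ, 0 < δ ∧ ∀ p ∈ Bad, δ ≤ F p := by
    rcases Bad.eq_empty_or_nonempty with h | h
    · exact ⟨1, one_pos, by simp [h]⟩
    · obtain ⟨p, hp, hmin⟩ := hBc.exists_isMinOn h hFc.continuousOn
      exact ⟨F p, hFpos p hp, fun q hq => hmin hq⟩
  refine ⟨δ / (S.card + 1), by positivity, S, hSmem, fun f hf1 hH hff hfa Z hLF hZc => ?_⟩
  by_contra hbad
  push Not at hbad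
  have hmemB : (f, Z) ∈ Bad := by
    refine ⟨⟨?_, ?_⟩, hH, hLF, hZc, hbad.le⟩
    · intro x _ y _
      simpa using hf1 x y
    · intro x _ y _
      simpa using norm_apply_le_of_contraction hZc x y
  have h1 := hδF _ hmemB
  have h2 : ∑ a ∈ S, nsq (f * a * f - a * f) ≤ S.card * (δ / (S.card + 1)) := by
    rw [← nsmul_eq_mul]
    exact sum_le_card_nsmul _ _ _ fun a ha => (hfa a ha).le
  simp only [hF] at h1
  have h3 : ((S.card : ℝ) + 1) * (δ / (S.card + 1)) = δ := by field_simp
  linarith

end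

end Vale.Agent.P131
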