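import Vale.Agent.P131.Basic

/-!
# Existence of the standard representation

Coordinates of level `n` are chosen along orthonormal bases which extend one another, so every
level sits isometrically in `ℓ²(ℕ)`; multiplications are pointwise limits of finite rank maps.
-/

namespace Vale.Agent.P131

open scoped Matrix ComplexConjugate Kronecker
open Filter Topology

noncomputable section

namespace ModelExists

variable {B : ℕ → ℕ}

abbrev HS : Type := lp (fun _ : ℕ => ℂ) 2

abbrev Mat (B : ℕ → ℕ) (n : ℕ) : Type := Matrix (Lv B n) (Lv B n) ℂ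

abbrev Tail (B : ℕ → ℕ) (n m : ℕ) : Type :=
  (i : {i : Fin m // n ≤ i.val}) → Site i.1 (B i.1)

/-- Split a level into a prefix and a tail. -/
def cut {n m : ℕ} (h : n ≤ m) : Lv B m ≃ Lv B n × Tail B n m where
  toFun u := (trunc h u, fun i => u i.1)
  invFun p := fun i => if hi : i.val < n then p.1 ⟨i.val, hi⟩ else p.2 ⟨i, not_lt.1 hi⟩
  left_inv u := by
    funext i
    by_cases hi : i.val < n
    · simp [hi, trunc]
    · simp [hi]
  right_inv p := by
    refine Prod.ext ?_ ?_
    · funext i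
      simp [trunc]
    · funext i
      have hi : ¬ i.1.val < n := not_lt.2 i.2
      simp [hi]

lemma embL_pos {n m : ℕ} (h : n ≤ m) (X : Mat B n) {u v : Lv B m}
    (hc : ∀ i : Fin m, n ≤ i.val → u i = v i) : embL h X u v = X (trunc h u) (trunc h v) :=
  if_pos hc

lemma embL_neg {n m : ℕ} (h : n ≤ m) (X : Mat B n) {u v : Lv B m}
    (hc : ¬ ∀ i : Fin m, n ≤ i.val → u i = v i) : embL h X u v = 0 :=
  if_neg hc

lemma embL_eq {n m : ℕ} (h : n ≤ m) (X : Mat B n) :
    embL h X = (X ⊗ₖ (1 : Matrix (Tail B n m) (Tail B n m) ℂ)).submatrix (cut h) (cut h) := by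
  funext u v
  show _ = X (cut h u).1 (cut h v).1 * (1 : Matrix (Tail B n m) (Tail B n m) ℂ) _ _
  by_cases hc : ∀ i : Fin m, n ≤ i.val → u i = v i
  · have ht : (cut h u).2 = (cut h v).2 := funext fun i => hc i.1 i.2
    rw [embL_pos h X hc, ht, Matrix.one_apply_eq, mul_one]
    rfl
  · have ht : (cut h u).2 ≠ (cut h v).2 := fun e => hc fun i hi => congrFun e ⟨i, hi⟩
    rw [embL_neg h X hc, Matrix.one_apply_ne ht, mul_zero]

lemma embL_mul {n m : ℕ} (h : n ≤ m) (X Y : Mat B n) :
    embL h (X * Y) = embL h X * embL h Y := by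
  simp only [embL_eq, Matrix.submatrix_mul_equiv]
  rw [← Matrix.mul_kronecker_mul, one_mul]

lemma embL_one {n m : ℕ} (h : n ≤ m) : embL h (1 : Mat B n) = 1 := by
  rw [embL_eq, Matrix.one_kronecker_one, Matrix.submatrix_one_equiv]

lemma embL_conjTranspose {n m : ℕ} (h : n ≤ m) (X : Mat B n) : (embL h X)ᴴ = embL h Xᴴ := by
  rw [embL_eq, embL_eq, Matrix.conjTranspose_submatrix, Matrix.conjTranspose_kronecker,
    Matrix.conjTranspose_one]

lemma embL_add {n m : ℕ} (h : n ≤ m) (X Y : Mat B n) :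
    embL h (X + Y) = embL h X + embL h Y := by
  funext u v
  simp only [embL, Matrix.add_apply]
  split_ifs <;> simp

lemma embL_smul {n m : ℕ} (h : n ≤ m) (c : ℂ) (X : Mat B n) :
    embL h (c • X) = c • embL h X := by
  funext u v
  simp only [embL, Matrix.smul_apply]
  split_ifs <;> simp

lemma embL_refl {n : ℕ} (h : n ≤ n) (X : Mat B n) : embL h X = X := by
  funext u v
  rw [embL, if_pos fun i hi => absurd i.isLt (not_lt.2 hi)]
  rfl

lemma embL_trans {n m k : ℕ} (h₁ : n ≤ m) (h₂ : m ≤ k) (X : Mat B n) :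
    embL h₂ (embL h₁ X) = embL (h₁.trans h₂) X := by
  funext u v
  by_cases hk : ∀ i : Fin k, n ≤ i.val → u i = v i
  · have h2 : ∀ i : Fin k, m ≤ i.val → u i = v i := fun i hi => hk i (h₁.trans hi)
    have h1 : ∀ i : Fin m, n ≤ i.val → trunc h₂ u i = trunc h₂ v i :=
      fun i hi => hk (Fin.castLE h₂ i) hi
    rw [embL_pos _ _ h2, embL_pos _ _ h1, embL_pos _ _ hk]
    rfl
  · rw [embL_neg _ _ hk]
    by_cases h2 : ∀ i : Fin k, m ≤ i.val → u i = v i
    · rw [embL_pos _ _ h2]
      refine embL_neg _ _ ?_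
      intro h1
      apply hk
      intro i hi
      by_cases him : i.val < m
      · exact h1 ⟨i.val, him⟩ hi
      · exact h2 i (not_lt.1 him)
    · exact embL_neg _ _ h2

instance instNonemptyLv (n : ℕ) : Nonempty (Lv B n) := inferInstance

lemma card_ne (n : ℕ) : (Fintype.card (Lv B n) : ℂ) ≠ 0 :=
  Nat.cast_ne_zero.2 Fintype.card_ne_zero

lemma ntr_embL {n m : ℕ} (h : n ≤ m) (X : Mat B n) : ntr (embL h X) = ntr X := by
  have hne : (Fintype.card (Tail B n m) : ℂ) ≠ 0 := Nat.cast_ne_zero.2 Fintype.card_ne_zero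
  have htr : ∀ {ι : Type} [Fintype ι] (M : Matrix ι ι ℂ), ntr M = M.trace / Fintype.card ι :=
    fun M => rfl
  have hs : (embL h X).trace = X.trace * Fintype.card (Tail B n m) := by
    have h1 : (embL h X).trace = (X ⊗ₖ (1 : Matrix (Tail B n m) (Tail B n m) ℂ)).trace := by
      rw [embL_eq]
      exact Fintype.sum_equiv (cut h) _ _ fun _ => rfl
    rw [h1, Matrix.trace_kronecker, Matrix.trace_one]
  have hc : Fintype.card (Lv B m) = Fintype.card (Lv B n) * Fintype.card (Tail B n m) := by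
    rw [Fintype.card_congr (cut h), Fintype.card_prod]
  rw [htr, htr, hs, hc, Nat.cast_mul, mul_div_mul_right _ _ hne]

lemma nsq_conjTranspose {ι : Type*} [Fintype ι] (X : Matrix ι ι ℂ) : nsq Xᴴ = nsq X := by
  simp only [nsq, Matrix.conjTranspose_apply, norm_star]
  rw [Finset.sum_comm]

/-- Crude bound for multiplication by `X ⊗ 1`. -/
def opC {n : ℕ} (X : Mat B n) : ℝ := ∑ c, ∑ a, ‖X c a‖ ^ 2

lemma opC_nonneg {n : ℕ} (X : Mat B n) : 0 ≤ opC X :=
  Finset.sum_nonneg fun _ _ => Finset.sum_nonneg fun _ _ => sq_nonneg _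

lemma nsq_embL_mul_le {n m : ℕ} (h : n ≤ m) (X : Mat B n) (Y : Mat B m) :
    nsq (embL h X * Y) ≤ opC X * nsq Y := by
  unfold nsq
  rw [← mul_div_assoc]
  refine div_le_div_of_nonneg_right ?_ (Nat.cast_nonneg _)
  set e := cut (B := B) h with he
  have hu : ∀ u w, (embL h X * Y) u w = ∑ a, X (e u).1 a * Y (e.symm (a, (e u).2)) w := by
    intro u w
    rw [Matrix.mul_apply]
    rw [← Equiv.sum_comp e.symm, Fintype.sum_prod_type]
    refine Finset.sum_congr rfl fun a _ => ?_
    rw [Finset.sum_eq_single (e u).2]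
    · simp [embL_eq, he]
    · intro t _ ht
      have : (e u).2 ≠ t := fun hh => ht hh.symm
      simp [embL_eq, ← he, Matrix.one_apply_ne this]
    · intro hh
      exact absurd (Finset.mem_univ _) hh
  calc ∑ u, ∑ w, ‖(embL h X * Y) u w‖ ^ 2
      ≤ ∑ u, ∑ w, (∑ a, ‖X (e u).1 a‖ ^ 2) * ∑ a, ‖Y (e.symm (a, (e u).2)) w‖ ^ 2 := by
        refine Finset.sum_le_sum fun u _ => Finset.sum_le_sum fun w _ => ?_
        rw [hu]
        calc ‖∑ a, X (e u).1 a * Y (e.symm (a, (e u).2)) w‖ ^ 2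
            ≤ (∑ a, ‖X (e u).1 a‖ * ‖Y (e.symm (a, (e u).2)) w‖) ^ 2 := by
              refine pow_le_pow_left₀ (norm_nonneg _) ?_ 2
              exact (norm_sum_le _ _).trans (Finset.sum_le_sum fun a _ => norm_mul_le _ _)
          _ ≤ _ := Finset.sum_mul_sq_le_sq_mul_sq _ _ _
    _ = ∑ p : Lv B n × Tail B n m,
          (∑ a, ‖X p.1 a‖ ^ 2) * ∑ w, ∑ a, ‖Y (e.symm (a, p.2)) w‖ ^ 2 := by
        refine Fintype.sum_equiv e _ _ fun u => ?_
        rw [Finset.mul_sum]
    _ = opC X * ∑ t, ∑ w, ∑ a, ‖Y (e.symm (a, t)) w‖ ^ 2 := by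
        rw [Fintype.sum_prod_type, opC, Finset.sum_mul]
        refine Finset.sum_congr rfl fun c _ => ?_
        rw [Finset.mul_sum]
    _ = opC X * ∑ u, ∑ w, ‖Y u w‖ ^ 2 := by
        congr 1
        rw [← Equiv.sum_comp e.symm (fun u => ∑ w, ‖Y u w‖ ^ 2), Fintype.sum_prod_type_right]
        exact Finset.sum_congr rfl fun t _ => Finset.sum_comm

lemma nsq_mul_embL_le {n m : ℕ} (h : n ≤ m) (X : Mat B n) (Y : Mat B m) :
    nsq (Y * embL h X) ≤ opC Xᴴ * nsq Y := by
  rw [← nsq_conjTranspose, Matrix.conjTranspose_mul, embL_conjTranspose]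
  exact (nsq_embL_mul_le h _ _).trans_eq (by rw [nsq_conjTranspose])

/-- The Hilbert space of a level. -/
abbrev K (B : ℕ → ℕ) (n : ℕ) : Type := EuclideanSpace ℂ (Lv B n × Lv B n)

/-- The normalisation. -/
def scal (B : ℕ → ℕ) (n : ℕ) : ℂ := ((Real.sqrt (Fintype.card (Lv B n)))⁻¹ : ℝ)

lemma scal_ne (n : ℕ) : scal B n ≠ 0 := by
  unfold scal
  have : (0 : ℝ) < Fintype.card (Lv B n) := Nat.cast_pos.2 Fintype.card_pos
  exact Complex.ofReal_ne_zero.2 (inv_ne_zero (Real.sqrt_pos.2 this).ne')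

/-- Coordinates of a matrix. -/
def toK (n : ℕ) : Mat B n ≃ₗ[ℂ] K B n where
  toFun Y := WithLp.toLp 2 fun p => scal B n * Y p.1 p.2
  invFun v := fun x y => (scal B n)⁻¹ * v (x, y)
  map_add' Y Z := by
    ext p
    simp [mul_add]
  map_smul' c Y := by
    ext p
    simp
    ring
  left_inv Y := by
    funext x y
    simp [scal_ne]
  right_inv v := by
    ext p
    simp [scal_ne]

lemma toK_apply (n : ℕ) (Y : Mat B n) (p : Lv B n × Lv B n) :
    toK n Y p = scal B n * Y p.1 p.2 :=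
  rfl

lemma toK_inner (n : ℕ) (Y Z : Mat B n) : inner ℂ (toK n Y) (toK n Z) = ntr (Yᴴ * Z) := by
  have hs : conj (scal B n) * scal B n = ((Fintype.card (Lv B n) : ℂ))⁻¹ := by
    unfold scal
    rw [Complex.conj_ofReal, ← Complex.ofReal_mul, ← mul_inv,
      Real.mul_self_sqrt (Nat.cast_nonneg _)]
    simp
  simp only [PiLp.inner_apply, toK_apply, RCLike.inner_apply', map_mul, ntr, Matrix.mul_apply, Matrix.conjTranspose_apply]
  rw [Fintype.sum_prod_type, Finset.sum_comm, div_eq_mul_inv, ← hs, Finset.sum_mul]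
  refine Finset.sum_congr rfl fun y _ => ?_
  rw [Finset.sum_mul]
  refine Finset.sum_congr rfl fun x _ => ?_
  simp only [RCLike.star_def]
  ring

lemma toK_norm_sq (n : ℕ) (Y : Mat B n) : ‖toK n Y‖ ^ 2 = nsq Y := by
  rw [EuclideanSpace.norm_sq_eq]
  simp only [toK_apply, norm_mul, mul_pow, nsq]
  rw [← Finset.mul_sum, Fintype.sum_prod_type, scal, Complex.norm_real, Real.norm_eq_abs, sq_abs,
    inv_pow, Real.sq_sqrt (Nat.cast_nonneg _), div_eq_inv_mul]

/-- The inclusion of one level in the next. -/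
def embK (n : ℕ) : K B n →ₗ[ℂ] K B (n + 1) where
  toFun v := toK (n + 1) (embL n.le_succ ((toK n).symm v))
  map_add' v w := by rw [map_add, embL_add, map_add]
  map_smul' c v := by rw [map_smul, embL_smul, map_smul, RingHom.id_apply]

lemma embK_inner (n : ℕ) (v w : K B n) : inner ℂ (embK n v) (embK n w) = inner ℂ v w := by
  have hv := toK_inner n ((toK n).symm v) ((toK n).symm w)
  rw [LinearEquiv.apply_symm_apply, LinearEquiv.apply_symm_apply] at hv
  show inner ℂ (toK (n + 1) _) (toK (n + 1) _) = _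
  rw [toK_inner, embL_conjTranspose, ← embL_mul, ntr_embL, ← hv]

/-- Number of coordinates. -/
def dim (B : ℕ → ℕ) (n : ℕ) : ℕ := Fintype.card (Lv B n × Lv B n)

lemma finrank_K (n : ℕ) : Module.finrank ℂ (K B n) = Fintype.card (Fin (dim B n)) := by
  rw [finrank_euclideanSpace, Fintype.card_fin]
  rfl

lemma dim_le (n : ℕ) : dim B n ≤ dim B (n + 1) := by
  have h : Fintype.card (Lv B n) ≤ Fintype.card (Lv B (n + 1)) := by
    rw [Fintype.card_congr (cut (B := B) n.le_succ), Fintype.card_prod]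
    exact Nat.le_mul_of_pos_right _ Fintype.card_pos
  unfold dim
  rw [Fintype.card_prod, Fintype.card_prod]
  exact Nat.mul_le_mul h h

lemma extend (n : ℕ) (b : OrthonormalBasis (Fin (dim B n)) ℂ (K B n)) :
    ∃ b' : OrthonormalBasis (Fin (dim B (n + 1))) ℂ (K B (n + 1)),
      ∀ i, b' (Fin.castLE (dim_le n) i) = embK n (b i) := by
  let v : Fin (dim B (n + 1)) → K B (n + 1) := fun j =>
    if hj : j.val < dim B n then embK n (b ⟨j.val, hj⟩) else 0
  have hv : Orthonormal ℂ (({j : Fin (dim B (n + 1)) | j.val < dim B n}).domRestrict v) := by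
    rw [orthonormal_iff_ite]
    intro j k
    have hj : j.1.val < dim B n := j.2
    have hk : k.1.val < dim B n := k.2
    simp only [Set.domRestrict_apply, v, dif_pos hj, dif_pos hk, embK_inner,
      orthonormal_iff_ite.1 b.orthonormal, Fin.mk.injEq]
    exact if_congr (by rw [← Fin.ext_iff, ← Subtype.ext_iff]) rfl rfl
  obtain ⟨b', hb'⟩ := hv.exists_orthonormalBasis_extension_of_card_eq (finrank_K (n + 1))
  refine ⟨b', fun i => ?_⟩
  rw [hb' _ i.isLt]
  simp [v]

/-- Compatible orthonormal bases. -/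
def bas (B : ℕ → ℕ) : (n : ℕ) → OrthonormalBasis (Fin (dim B n)) ℂ (K B n)
  | 0 => (EuclideanSpace.basisFun (Lv B 0 × Lv B 0) ℂ).reindex (Fintype.equivFin _)
  | n + 1 => (extend n (bas B n)).choose

lemma bas_succ (n : ℕ) (i : Fin (dim B n)) :
    bas B (n + 1) (Fin.castLE (dim_le n) i) = embK n (bas B n i) :=
  (extend n (bas B n)).choose_spec i

/-- Coordinate vectors. -/
def del (i : ℕ) : HS := lp.single 2 i 1

lemma del_inner (i j : ℕ) : inner ℂ (del i) (del j) = if i = j then (1 : ℂ) else 0 := by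
  rw [del, lp.inner_single_left, del, lp.single_apply]
  by_cases h : i = j <;> simp [h]

/-- The inclusion of a level. -/
def G (n : ℕ) : K B n →ₗ[ℂ] HS :=
  (bas B n).toBasis.constr ℂ fun i => del i.val

lemma G_bas (n : ℕ) (i : Fin (dim B n)) : G n (bas B n i) = del i.val := by
  have h := (bas B n).toBasis.constr_basis ℂ (fun i => del i.val) i
  rwa [OrthonormalBasis.coe_toBasis] at h

lemma G_inner (n : ℕ) (v w : K B n) : inner ℂ (G n v) (G n w) = inner ℂ v w := by
  conv_lhs => rw [← (bas B n).sum_repr v, ← (bas B n).sum_repr w]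
  conv_rhs => rw [← (bas B n).sum_repr v, ← (bas B n).sum_repr w]
  simp only [map_sum, map_smul, G_bas, sum_inner, inner_sum, inner_smul_left, inner_smul_right,
    del_inner, orthonormal_iff_ite.1 (bas B n).orthonormal, Fin.val_inj]

lemma G_embK (n : ℕ) (v : K B n) : G (n + 1) (embK n v) = G n v := by
  have h : (G (n + 1)).comp (embK n) = G (B := B) n := by
    refine (bas B n).toBasis.ext fun i => ?_
    rw [OrthonormalBasis.coe_toBasis, LinearMap.comp_apply, ← bas_succ, G_bas, G_bas]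
    rfl
  rw [← h]
  rfl

/-- Vectors of a level. -/
def Φ (n : ℕ) : Mat B n →ₗ[ℂ] HS := (G n).comp (toK n).toLinearMap

lemma Φ_inner (n : ℕ) (Y Z : Mat B n) : inner ℂ (Φ n Y) (Φ n Z) = ntr (Yᴴ * Z) :=
  (G_inner n _ _).trans (toK_inner n Y Z)

lemma Φ_norm_sq (n : ℕ) (Y : Mat B n) : ‖Φ n Y‖ ^ 2 = nsq Y := by
  have h : inner ℂ (Φ n Y) (Φ n Y) = inner ℂ (toK n Y) (toK n Y) := G_inner n _ _
  rw [inner_self_eq_norm_sq_to_K, inner_self_eq_norm_sq_to_K] at h
  rw [← toK_norm_sq]
  exact_mod_cast h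

lemma Φ_embL {n m : ℕ} (h : n ≤ m) (Y : Mat B n) : Φ m (embL h Y) = Φ n Y := by
  induction m, h using Nat.le_induction with
  | base => rw [embL_refl]
  | succ m hm ih =>
    rw [← embL_trans hm m.le_succ, ← ih]
    have := G_embK m (toK m (embL hm Y))
    simpa [embK, Φ] using this

/-- Evaluation at a coordinate. -/
def coordCLM (i : ℕ) : HS →L[ℂ] ℂ := innerSL ℂ (del i)

lemma coordCLM_apply (i : ℕ) (v : HS) : coordCLM i v = v i := by
  simp [coordCLM, del, lp.inner_single_left]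

/-- Projection to the coordinates of a level. -/
def Q (n : ℕ) (v : HS) : Mat B n := (toK n).symm (∑ i, v i.val • bas B n i)

lemma Φ_Q (n : ℕ) (v : HS) :
    Φ (B := B) n (Q n v) = ∑ i ∈ Finset.range (dim B n), lp.single 2 i (v i) := by
  simp only [Φ, Q, LinearMap.comp_apply, LinearEquiv.coe_coe, LinearEquiv.apply_symm_apply,
    map_sum, map_smul, G_bas]
  rw [← Fin.sum_univ_eq_sum_range fun i => lp.single 2 i (v i)]
  refine Finset.sum_congr rfl fun i _ => ?_
  rw [del, ← lp.single_smul, smul_eq_mul, mul_one]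

lemma Q_Φ (n : ℕ) (Y : Mat B n) : Q n (Φ n Y) = Y := by
  unfold Q
  rw [LinearEquiv.symm_apply_eq]
  conv_rhs => rw [← (bas B n).sum_repr (toK n Y)]
  refine Finset.sum_congr rfl fun i _ => ?_
  congr 1
  rw [OrthonormalBasis.repr_apply_apply, ← G_inner, G_bas, del, lp.inner_single_left]
  simp [Φ]

lemma card_Lv_succ_ge (n : ℕ) : n + 1 ≤ Fintype.card (Lv B (n + 1)) := by
  rw [Fintype.card_congr (cut (B := B) n.le_succ), Fintype.card_prod]
  have h1 : n + 1 ≤ dimSite n := by
    unfold dimSite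
    exact (Nat.lt_two_pow_self).trans_le (Nat.le_mul_of_pos_right _ (Nat.succ_pos _))
  have h2 : dimSite n ≤ Fintype.card (Tail B n (n + 1)) := by
    let i₀ : {i : Fin (n + 1) // n ≤ i.val} := ⟨Fin.last n, le_rfl⟩
    calc dimSite n ≤ Fintype.card (Site (i₀.1 : ℕ) (B i₀.1)) := by
          rw [Fintype.card_prod, Fintype.card_fin, Fintype.card_fin]
          exact Nat.le_mul_of_pos_right _ (Nat.succ_pos _)
      _ ≤ _ := by
          rw [Fintype.card_pi]
          exact Finset.single_le_prod'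
            (f := fun i : {i : Fin (n + 1) // n ≤ i.val} => Fintype.card (Site i.1.val (B i.1)))
            (fun i _ => Fintype.card_pos) (Finset.mem_univ i₀)
  calc n + 1 ≤ 1 * Fintype.card (Tail B n (n + 1)) := by omega
    _ ≤ _ := Nat.mul_le_mul_right _ Fintype.card_pos

lemma tendsto_dim : Tendsto (dim B) atTop atTop := by
  refine tendsto_atTop_mono' atTop ?_ tendsto_id
  filter_upwards [eventually_ge_atTop 1] with n hn
  obtain ⟨k, rfl⟩ : ∃ k, n = k + 1 := ⟨n - 1, by omega⟩
  have h := card_Lv_succ_ge (B := B) k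
  show k + 1 ≤ dim B (k + 1)
  unfold dim
  rw [Fintype.card_prod]
  exact h.trans (Nat.le_mul_of_pos_right _ Fintype.card_pos)

lemma tendsto_Q (v : HS) : Tendsto (fun n => Φ (B := B) n (Q n v)) atTop (𝓝 v) := by
  have h : HasSum (fun i => lp.single 2 i (v i)) v :=
    lp.hasSum_single ENNReal.ofNat_ne_top v
  simp only [Φ_Q]
  exact h.tendsto_sum_nat.comp tendsto_dim

/-- A compatible bounded family of maps of levels `≥ n`. -/
structure Fam (B : ℕ → ℕ) where
  n : ℕ
  a : ∀ m, n ≤ m → (Mat B m →ₗ[ℂ] Mat B m)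
  C : ℝ
  bound : ∀ m h Y, nsq (a m h Y) ≤ C * nsq Y
  compat : ∀ m k (h : n ≤ m) (hk : m ≤ k) Y,
    a k (h.trans hk) (embL hk Y) = embL hk (a m h Y)

namespace Fam

variable (F : Fam B)

lemma norm_le (m : ℕ) (h : F.n ≤ m) (Y : Mat B m) :
    ‖Φ m (F.a m h Y)‖ ≤ Real.sqrt F.C * ‖Φ m Y‖ := by
  rw [← Real.sqrt_sq (norm_nonneg (Φ m Y)), ← Real.sqrt_mul' _ (sq_nonneg _),
    ← Real.sqrt_sq (norm_nonneg (Φ m (F.a m h Y))), Φ_norm_sq, Φ_norm_sq]
  exact Real.sqrt_le_sqrt (F.bound m h Y)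

/-- Finite rank approximations. -/
def approx (j : ℕ) : HS →L[ℂ] HS :=
  ∑ i : Fin (dim B (F.n + j)), (coordCLM i.val).smulRight
    (Φ (F.n + j) (F.a _ (Nat.le_add_right _ _) ((toK _).symm (bas B (F.n + j) i))))

lemma approx_apply (j : ℕ) (v : HS) :
    F.approx j v = Φ (F.n + j) (F.a _ (Nat.le_add_right _ _) (Q (F.n + j) v)) := by
  simp [approx, Q, coordCLM_apply, map_sum]

lemma dist_approx {i j : ℕ} (hij : i ≤ j) (v : HS) :
    dist (F.approx i v) (F.approx j v) ≤
      Real.sqrt F.C * dist (Φ (B := B) (F.n + i) (Q (F.n + i) v))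
        (Φ (B := B) (F.n + j) (Q (F.n + j) v)) := by
  have hij' : F.n + i ≤ F.n + j := Nat.add_le_add_left hij _
  rw [dist_eq_norm, dist_eq_norm, approx_apply, approx_apply, ← Φ_embL hij' (Q (F.n + i) v),
    ← Φ_embL hij' (F.a _ _ (Q (F.n + i) v)),
    ← F.compat _ _ (Nat.le_add_right _ _) hij', ← map_sub, ← map_sub, ← map_sub]
  exact F.norm_le _ _ _

lemma exists_lim (v : HS) : ∃ w, Tendsto (fun j => F.approx j v) atTop (𝓝 w) := by
  refine cauchySeq_tendsto_of_complete ?_
  have hT : CauchySeq fun j => Φ (B := B) (F.n + j) (Q (F.n + j) v) :=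
    ((tendsto_Q v).comp (tendsto_atTop_mono (fun j => Nat.le_add_left j F.n) tendsto_id)).cauchySeq
  rw [Metric.cauchySeq_iff] at hT ⊢
  intro ε hε
  obtain ⟨N, hN⟩ := hT (ε / (Real.sqrt F.C + 1)) (by positivity)
  refine ⟨N, fun i hi j hj => ?_⟩
  have key : Real.sqrt F.C * dist (Φ (B := B) (F.n + i) (Q (F.n + i) v))
      (Φ (B := B) (F.n + j) (Q (F.n + j) v)) < ε := by
    calc Real.sqrt F.C * _ ≤ Real.sqrt F.C * (ε / (Real.sqrt F.C + 1)) :=
          mul_le_mul_of_nonneg_left (hN i hi j hj).le (Real.sqrt_nonneg _)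
      _ < (Real.sqrt F.C + 1) * (ε / (Real.sqrt F.C + 1)) := by
          have : 0 < ε / (Real.sqrt F.C + 1) := by positivity
          linarith
      _ = ε := by field_simp
  rcases le_total i j with h | h
  · exact (F.dist_approx h v).trans_lt key
  · rw [dist_comm]
    refine (F.dist_approx h v).trans_lt ?_
    rwa [dist_comm]

/-- The limit operator. -/
def op : HS →L[ℂ] HS :=
  continuousLinearMapOfTendsto (fun j => F.approx j) (f := fun v => (F.exists_lim v).choose)
    (tendsto_pi_nhds.2 fun v => (F.exists_lim v).choose_spec)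

lemma op_apply (m : ℕ) (h : F.n ≤ m) (Y : Mat B m) :
    F.op (Φ m Y) = Φ m (F.a m h Y) := by
  refine tendsto_nhds_unique (F.exists_lim _).choose_spec ?_
  refine tendsto_const_nhds.congr' ?_
  filter_upwards [eventually_ge_atTop m] with j hj
  have hm : m ≤ F.n + j := hj.trans (Nat.le_add_left _ _)
  rw [approx_apply]
  conv_rhs => rw [← Φ_embL hm Y, Q_Φ, F.compat m _ h hm, Φ_embL]

end Fam

lemma op_ext (k : ℕ) {S T : HS →L[ℂ] HS}
    (h : ∀ m, k ≤ m → ∀ Y : Mat B m, S (Φ m Y) = T (Φ m Y)) : S = T := by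
  refine ContinuousLinearMap.ext fun v => ?_
  refine tendsto_nhds_unique ((S.continuous.tendsto v).comp (tendsto_Q (B := B) v)) ?_
  refine ((T.continuous.tendsto v).comp (tendsto_Q (B := B) v)).congr' ?_
  filter_upwards [eventually_ge_atTop k] with m hm
  exact (h m hm _).symm

lemma adjoint_eq (k : ℕ) {S T : HS →L[ℂ] HS}
    (h : ∀ m, k ≤ m → ∀ Y Z : Mat B m,
      inner ℂ (T (Φ m Y)) (Φ m Z) = inner ℂ (Φ m Y) (S (Φ m Z))) :
    ContinuousLinearMap.adjoint S = T := by
  refine ((ContinuousLinearMap.eq_adjoint_iff T S).2 fun x y => ?_).symm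
  have hx := tendsto_Q (B := B) x
  have hy := tendsto_Q (B := B) y
  refine tendsto_nhds_unique (((T.continuous.tendsto x).comp hx).inner hy) ?_
  refine (hx.inner ((S.continuous.tendsto y).comp hy)).congr' ?_
  filter_upwards [eventually_ge_atTop k] with m hm
  exact (h m hm _ _).symm

/-- Left multiplication family. -/
def leftFam (n : ℕ) (X : Mat B n) : Fam B where
  n := n
  a m h := LinearMap.mulLeft ℂ (embL h X)
  C := opC X
  bound m h Y := nsq_embL_mul_le h X Y
  compat m k h hk Y := by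
    simp only [LinearMap.mulLeft_apply]
    rw [embL_mul, embL_trans]

/-- Right multiplication family. -/
def rightFam (n : ℕ) (X : Mat B n) : Fam B where
  n := n
  a m h := LinearMap.mulRight ℂ (embL h X)
  C := opC Xᴴ
  bound m h Y := nsq_mul_embL_le h X Y
  compat m k h hk Y := by
    simp only [LinearMap.mulRight_apply]
    rw [embL_mul, embL_trans]

lemma left_apply {n m : ℕ} (h : n ≤ m) (X : Mat B n) (Y : Mat B m) :
    (leftFam n X).op (Φ m Y) = Φ m (embL h X * Y) :=
  (leftFam n X).op_apply m h Y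

lemma right_apply {n m : ℕ} (h : n ≤ m) (X : Mat B n) (Y : Mat B m) :
    (rightFam n X).op (Φ m Y) = Φ m (Y * embL h X) :=
  (rightFam n X).op_apply m h Y

/-- Left multiplication as a linear map. -/
def Lmap (n : ℕ) : Mat B n →ₗ[ℂ] (HS →L[ℂ] HS) where
  toFun X := (leftFam n X).op
  map_add' X Y := op_ext (B := B) n fun m hm Z => by
    simp only [add_apply, left_apply hm, embL_add, add_mul, map_add]
  map_smul' c X := op_ext (B := B) n fun m hm Z => by
    simp only [smul_apply, left_apply hm, embL_smul, smul_mul_assoc, map_smul,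
      RingHom.id_apply]

/-- Right multiplication as a linear map. -/
def Rmap (n : ℕ) : Mat B n →ₗ[ℂ] (HS →L[ℂ] HS) where
  toFun X := (rightFam n X).op
  map_add' X Y := op_ext (B := B) n fun m hm Z => by
    simp only [add_apply, right_apply hm, embL_add, mul_add, map_add]
  map_smul' c X := op_ext (B := B) n fun m hm Z => by
    simp only [smul_apply, right_apply hm, embL_smul, mul_smul_comm, map_smul,
      RingHom.id_apply]

lemma Lmap_apply {n m : ℕ} (h : n ≤ m) (X : Mat B n) (Y : Mat B m) :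
    Lmap n X (Φ m Y) = Φ m (embL h X * Y) :=
  left_apply h X Y

lemma Rmap_apply {n m : ℕ} (h : n ≤ m) (X : Mat B n) (Y : Mat B m) :
    Rmap n X (Φ m Y) = Φ m (Y * embL h X) :=
  right_apply h X Y

lemma Lmap_vac (n : ℕ) (X : Mat B n) : Lmap n X (Φ (B := B) 0 1) = Φ n X := by
  rw [← Φ_embL n.zero_le (1 : Mat B 0), Lmap_apply le_rfl, embL_refl, embL_one, mul_one]

lemma Rmap_vac (n : ℕ) (X : Mat B n) : Rmap n X (Φ (B := B) 0 1) = Φ n X := by
  rw [← Φ_embL n.zero_le (1 : Mat B 0), Rmap_apply le_rfl, embL_refl, embL_one, one_mul]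

/-- The model. -/
def model (B : ℕ → ℕ) : Model B HS where
  L := Lmap
  R := Rmap
  vac := Φ (B := B) 0 1
  L_one n := op_ext (B := B) n fun m hm Z => by
    rw [Lmap_apply hm, embL_one, one_mul]; rfl
  R_one n := op_ext (B := B) n fun m hm Z => by
    rw [Rmap_apply hm, embL_one, mul_one]; rfl
  L_mul n X Y := op_ext (B := B) n fun m hm Z => by
    rw [mul_apply_eq_comp, Lmap_apply hm, Lmap_apply hm, Lmap_apply hm, embL_mul,
      mul_assoc]
  R_mul n X Y := op_ext (B := B) n fun m hm Z => by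
    rw [mul_apply_eq_comp, Rmap_apply hm, Rmap_apply hm, Rmap_apply hm, embL_mul,
      mul_assoc]
  L_adj n X := adjoint_eq (B := B) n fun m hm Y Z => by
    rw [Lmap_apply hm, Lmap_apply hm, Φ_inner, Φ_inner, Matrix.conjTranspose_mul,
      embL_conjTranspose, Matrix.conjTranspose_conjTranspose, mul_assoc]
  R_adj n X := adjoint_eq (B := B) n fun m hm Y Z => by
    rw [Rmap_apply hm, Rmap_apply hm, Φ_inner, Φ_inner, Matrix.conjTranspose_mul,
      embL_conjTranspose, Matrix.conjTranspose_conjTranspose]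
    have hc : ∀ U V : Mat B m, ntr (U * V) = ntr (V * U) := fun U V => by
      show (U * V).trace / _ = (V * U).trace / _
      rw [Matrix.trace_mul_comm]
    rw [mul_assoc, hc, mul_assoc]
  comm n m X Y := op_ext (B := B) (max n m) fun k hk Z => by
    have hn : n ≤ k := (le_max_left _ _).trans hk
    have hm : m ≤ k := (le_max_right _ _).trans hk
    rw [mul_apply_eq_comp, mul_apply_eq_comp, Rmap_apply hm,
      Lmap_apply hn, Lmap_apply hn, Rmap_apply hm, mul_assoc]
  L_emb n m h X := op_ext (B := B) m fun k hk Z => by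
    rw [Lmap_apply hk, Lmap_apply (h.trans hk), embL_trans]
  R_emb n m h X := op_ext (B := B) m fun k hk Z => by
    rw [Rmap_apply hk, Rmap_apply (h.trans hk), embL_trans]
  vac_eq n X := by rw [Lmap_vac, Rmap_vac]
  vac_norm n X := by rw [Lmap_vac, Φ_norm_sq]
  dense ξ ε hε := by
    obtain ⟨N, hN⟩ := Metric.tendsto_atTop.1 (tendsto_Q (B := B) ξ) ε hε
    refine ⟨N, Q N ξ, ?_⟩
    rw [Lmap_vac, ← dist_eq_norm]
    exact hN N le_rfl

end ModelExists

/-- The standard representation exists. -/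
theorem goalModel : GoalModel := fun B => ⟨ModelExists.model B⟩

end

end Vale.Agent.P131
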