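import Vale.Agent.P131.Expect
import Vale.Agent.P131.Finite
import Vale.Agent.P131.ModelExists

/-!
# A nonscalar operator with a transitive commutant
-/

namespace Vale.Agent.P131

open scoped Matrix ComplexConjugate InnerProductSpace Topology
open Finset Filter

noncomputable section

/-- The modulus of the finite level. -/
def eta {n : ℕ} (s : Fin (n + 1) → ℕ) : ℝ := (goalFinite s).choose

lemma eta_pos {n : ℕ} (s : Fin (n + 1) → ℕ) : 0 < eta s := (goalFinite s).choose_spec.1

/-- The test elements of the finite level. -/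
def tests {n : ℕ} (s : Fin (n + 1) → ℕ) : Finset (Matrix (Idx s) (Idx s) ℂ) :=
  (goalFinite s).choose_spec.2.choose

lemma tests_spec {n : ℕ} (s : Fin (n + 1) → ℕ) :
    (∀ a ∈ tests s, a * tMat s = tMat s * a) ∧
      ∀ f : Matrix (Idx s) (Idx s) ℂ, (∀ x y, ‖f x y‖ ≤ 1) → fᴴ = f →
        nsq (f * f - f) < eta s → (∀ a ∈ tests s, nsq (f * a * f - a * f) < eta s) →
        ∀ Z : Matrix (Idx s) (Idx s) ℂ, LastFree Z → (∀ z, nsq (Z * z) ≤ nsq z) →
          ‖ntr (f * Z) - ntr f * ntr Z‖ ≤ 10 * (1 / 2 : ℝ) ^ n :=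
  (goalFinite s).choose_spec.2.choose_spec

/-- The weight of the finite level. -/
def mass {n : ℕ} (s : Fin (n + 1) → ℕ) : ℝ := 1 + ∑ a ∈ tests s, fro a

lemma mass_pos {n : ℕ} (s : Fin (n + 1) → ℕ) : 0 < mass s := by
  have : 0 ≤ ∑ a ∈ tests s, fro a := Finset.sum_nonneg fun a _ => fro_nonneg a
  unfold mass; linarith

/-- The multiplicity needed at site `j`, given the lower ones. -/
def need (j : ℕ) (p : ℕ → ℕ) : ℕ :=
  ⌈siteK j * 2 ^ j * ∑ n ∈ range j,
    mass (fun i : Fin (n + 1) => p i) / eta (fun i : Fin (n + 1) => p i)⌉₊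

/-- Approximations of the multiplicities. -/
def seqB : ℕ → ℕ → ℕ
  | 0 => fun _ => 0
  | j + 1 => Function.update (seqB j) j (need j (seqB j))

/-- The multiplicities. -/
def multB (j : ℕ) : ℕ := seqB (j + 1) j

lemma seqB_eq : ∀ {m i : ℕ}, i < m → seqB m i = multB i
  | 0, _, h => absurd h (Nat.not_lt_zero _)
  | m + 1, i, h => by
    rcases Nat.lt_or_eq_of_le (Nat.lt_succ_iff.1 h) with hlt | heq
    · rw [seqB, Function.update_of_ne (ne_of_lt hlt), seqB_eq hlt]
    · subst heq; rfl

lemma site_ratio_le {n j : ℕ} (h : n < j) :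
    siteK j / (multB j + 1) ≤
      (1 / 2) ^ j * (eta (fun i : Fin (n + 1) => multB i) / mass (fun i : Fin (n + 1) => multB i)) := by
  set q : ℕ → ℝ := fun n =>
    mass (fun i : Fin (n + 1) => multB i) / eta (fun i : Fin (n + 1) => multB i) with hq
  have hpos : ∀ k, 0 < q k := fun k => div_pos (mass_pos _) (eta_pos _)
  have hB : multB j = ⌈siteK j * 2 ^ j * ∑ k ∈ range j, q k⌉₊ := by
    rw [multB, seqB, Function.update_self, need]
    congr 2
    refine Finset.sum_congr rfl fun k hk => ?_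
    have e : (fun i : Fin (k + 1) => seqB j i) = fun i : Fin (k + 1) => multB i :=
      funext fun i => seqB_eq (lt_of_lt_of_le i.isLt (Finset.mem_range.1 hk))
    rw [e]
  have h1 : siteK j * 2 ^ j * q n ≤ (multB j : ℝ) + 1 := by
    have h2 : q n ≤ ∑ k ∈ range j, q k :=
      Finset.single_le_sum (fun k _ => (hpos k).le) (Finset.mem_range.2 h)
    have h3 := Nat.le_ceil (siteK j * 2 ^ j * ∑ k ∈ range j, q k)
    rw [← hB] at h3
    have h4 : (0 : ℝ) ≤ siteK j * 2 ^ j := mul_nonneg (siteK_nonneg j) (by positivity)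
    nlinarith
  have he : eta (fun i : Fin (n + 1) => multB i) / mass (fun i : Fin (n + 1) => multB i)
      = 1 / q n := by rw [hq]; simp
  rw [he, one_div_pow, div_mul_div_comm, one_mul, div_le_div_iff₀ (by positivity)
    (mul_pos (by positivity) (hpos n))]
  linarith

variable {B : ℕ → ℕ} {H : Type} [NormedAddCommGroup H] [InnerProductSpace ℂ H] [CompleteSpace H]
  {md : Model B H}

lemma window_bound (ip : InvProj md) {n m : ℕ} (hm : n + 1 ≤ m) {η : ℝ} (hη : 0 < η)
    (S : Finset (Matrix (Lv B (n + 1)) (Lv B (n + 1)) ℂ))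
    (hS : ∀ a ∈ S, a * tMat (fun i : Fin (n + 1) => B i) = tMat (fun i : Fin (n + 1) => B i) * a)
    (hfin : ∀ f : Matrix (Lv B (n + 1)) (Lv B (n + 1)) ℂ, (∀ x y, ‖f x y‖ ≤ 1) → fᴴ = f →
        nsq (f * f - f) < η → (∀ a ∈ S, nsq (f * a * f - a * f) < η) →
        ∀ Z : Matrix (Lv B (n + 1)) (Lv B (n + 1)) ℂ,
          LastFree (s := fun i : Fin (n + 1) => B i) Z → (∀ z, nsq (Z * z) ≤ nsq z) →
          ‖ntr (f * Z) - ntr f * ntr Z‖ ≤ 10 * (1 / 2 : ℝ) ^ n)
    (Z : Matrix (Lv B (n + 1)) (Lv B (n + 1)) ℂ)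
    (hZ : LastFree (s := fun i : Fin (n + 1) => B i) Z) (hZc : ∀ z, nsq (Z * z) ≤ nsq z) :
    ‖ntr (ip.pm (n + 1) * Z) - ⟪md.vac, ip.pv⟫_ℂ * ntr Z‖ ≤ 10 * (1 / 2 : ℝ) ^ n +
      2 / η * (2 * ((1 + ∑ a ∈ S, ‖md.L (n + 1) a‖ ^ 2) * ip.dist' m ^ 2) +
        2 * ((1 + ∑ a ∈ S, fro a) *
          ∑ j ∈ univ.filter (fun j : Fin m => n + 1 ≤ j.val), offd j (ip.pm m))) := by
  set f := ip.pm m with hf
  set o := offTail (n + 1) f with ho
  set fb : Lv B m → Matrix (Lv B (n + 1)) (Lv B (n + 1)) ℂ := fun w => blk (n + 1) f w with hfb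
  set e : Lv B m → ℝ := fun w => nsq (fb w * fb w - fb w) +
    ∑ a ∈ S, nsq (fb w * a * fb w - a * fb w) with he
  have hrow : ∀ w x, ∑ y, ‖fb w x y‖ ^ 2 ≤ 1 := by
    intro w x
    refine le_trans ?_ (ip.pm_row_le m (glue x w))
    calc ∑ y : Lv B (n + 1), ‖f (glue x w) (glue y w)‖ ^ 2
        = ∑ v ∈ (univ : Finset (Lv B (n + 1))).image (fun y => glue y w), ‖f (glue x w) v‖ ^ 2 :=
          (Finset.sum_image (f := fun v => ‖f (glue x w) v‖ ^ 2) (g := fun y : Lv B (n + 1) => glue y w)
            fun a _ b _ hab => glue_injective hm w hab).symm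
      _ ≤ _ := Finset.sum_le_sum_of_subset_of_nonneg (subset_univ _) fun v _ _ => by positivity
  have hfb1 : ∀ w x y, ‖fb w x y‖ ≤ 1 := fun w x y =>
    (sq_le_one_iff₀ (norm_nonneg _)).1 ((Finset.single_le_sum
      (f := fun y => ‖fb w x y‖ ^ 2) (fun _ _ => by positivity) (mem_univ y)).trans (hrow w x))
  have hnsq : ∀ w, nsq (fb w) ≤ 1 := by
    intro w
    unfold nsq
    rw [div_le_one (card_pos B (n + 1))]
    refine (Finset.sum_le_sum fun x _ => hrow w x).trans ?_
    simp
  have hsym : ∀ w, (fb w)ᴴ = fb w := by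
    intro w
    simp only [hfb, hf, blk_conjTranspose, ip.pm_herm]
  have hZ1 : ‖ntr Z‖ ≤ 1 := by
    refine norm_ntr_le_one Z ?_
    have := hZc 1
    rwa [mul_one, nsq_one] at this
  have e0 : ∀ w, 0 ≤ e w := fun w =>
    add_nonneg (nsq_nonneg _) (Finset.sum_nonneg fun a _ => nsq_nonneg _)
  have hpoint : ∀ w, ‖ntr (fb w * Z) - ntr (fb w) * ntr Z‖
      ≤ 10 * (1 / 2 : ℝ) ^ n + 2 / η * e w := by
    intro w
    have h2 : (0 : ℝ) ≤ 10 * (1 / 2 : ℝ) ^ n := by positivity
    rcases lt_or_ge (e w) η with hlt | hge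
    · have h3 : (0 : ℝ) ≤ 2 / η * e w := mul_nonneg (by positivity) (e0 w)
      have := hfin (fb w) (hfb1 w) (hsym w)
        (lt_of_le_of_lt (le_add_of_nonneg_right (Finset.sum_nonneg fun a _ => nsq_nonneg _)) hlt)
        (fun a ha => lt_of_le_of_lt ((Finset.single_le_sum
          (f := fun a => nsq (fb w * a * fb w - a * fb w)) (fun _ _ => nsq_nonneg _) ha).trans
          (le_add_of_nonneg_left (nsq_nonneg _))) hlt) Z hZ hZc
      linarith
    · have h1 : ‖ntr (fb w * Z)‖ ≤ 1 := by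
        rw [ntr_mul_comm]; exact norm_ntr_le_one _ ((hZc _).trans (hnsq w))
      have h3 : ‖ntr (fb w) * ntr Z‖ ≤ 1 := by
        rw [norm_mul]
        exact mul_le_one₀ (norm_ntr_le_one _ (hnsq w)) (norm_nonneg _) hZ1
      have h4 : 2 ≤ 2 / η * e w := by
        rw [div_mul_eq_mul_div, le_div_iff₀ hη]; linarith
      have := norm_sub_le (ntr (fb w * Z)) (ntr (fb w) * ntr Z)
      linarith
  have hsum : ∑ w, e w ≤ Fintype.card (Lv B m) *
      (2 * ((1 + ∑ a ∈ S, ‖md.L (n + 1) a‖ ^ 2) * ip.dist' m ^ 2) +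
        2 * ((1 + ∑ a ∈ S, fro a) *
          ∑ j ∈ univ.filter (fun j : Fin m => n + 1 ≤ j.val), offd j f)) := by
    set O := ∑ j ∈ univ.filter (fun j : Fin m => n + 1 ≤ j.val), offd j f with hO
    have hoO : nsq o ≤ O := nsq_offTail_le f
    have hc : (0 : ℝ) ≤ Fintype.card (Lv B m) := by positivity
    have t1 : ∑ w, nsq (fb w * fb w - fb w)
        ≤ Fintype.card (Lv B m) * (2 * ip.dist' m ^ 2 + 2 * O) := by
      have hid : ∀ w, fb w * fb w - fb w
          = blk (n + 1) (f * f - f) w - blk (n + 1) (o * f) w := by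
        intro w
        rw [blk_sub, blk_mul hm]
        simp only [hfb, ho]
        abel
      calc ∑ w, nsq (fb w * fb w - fb w)
          ≤ ∑ w, (2 * nsq (blk (n + 1) (f * f - f) w) + 2 * nsq (blk (n + 1) (o * f) w)) :=
            Finset.sum_le_sum fun w _ => by rw [hid w]; exact nsq_sub_le _ _
        _ = 2 * ∑ w, nsq (blk (n + 1) (f * f - f) w) + 2 * ∑ w, nsq (blk (n + 1) (o * f) w) := by
            rw [Finset.sum_add_distrib, ← Finset.mul_sum, ← Finset.mul_sum]
        _ ≤ 2 * (Fintype.card (Lv B m) * ip.dist' m ^ 2) + 2 * (Fintype.card (Lv B m) * O) := by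
            gcongr
            · exact (sum_nsq_blk_le hm _).trans (by gcongr; exact ip.nsq_idem_le m)
            · refine (sum_nsq_blk_le hm _).trans ?_
              gcongr
              exact (ip.nsq_mul_pm_le m o).trans hoO
        _ = _ := by ring
    have t2 : ∀ a ∈ S, ∑ w, nsq (fb w * a * fb w - a * fb w)
        ≤ Fintype.card (Lv B m) * (2 * (‖md.L (n + 1) a‖ ^ 2 * ip.dist' m ^ 2) +
          2 * (fro a * O)) := by
      intro a ha
      set A := embL hm a with hA
      have hid : ∀ w, fb w * a * fb w - a * fb w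
          = blk (n + 1) (f * A * f - A * f) w - blk (n + 1) (o * A * f) w := by
        intro w
        rw [blk_sub, blk_mul hm, hA, blk_mul_embL, blk_embL_mul, offTail_mul_embL]
        simp only [hfb, ho]
        abel
      have hoA : nsq (o * A) ≤ fro a * O := by
        rw [← nsq_conjTranspose, Matrix.conjTranspose_mul, hA, embL_conjTranspose]
        refine (nsq_embL_mul_le hm _ _).trans ?_
        rw [fro_conjTranspose, nsq_conjTranspose]
        exact mul_le_mul_of_nonneg_left hoO (fro_nonneg a)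
      calc ∑ w, nsq (fb w * a * fb w - a * fb w)
          ≤ ∑ w, (2 * nsq (blk (n + 1) (f * A * f - A * f) w)
              + 2 * nsq (blk (n + 1) (o * A * f) w)) :=
            Finset.sum_le_sum fun w _ => by rw [hid w]; exact nsq_sub_le _ _
        _ = 2 * ∑ w, nsq (blk (n + 1) (f * A * f - A * f) w)
              + 2 * ∑ w, nsq (blk (n + 1) (o * A * f) w) := by
            rw [Finset.sum_add_distrib, ← Finset.mul_sum, ← Finset.mul_sum]
        _ ≤ 2 * (Fintype.card (Lv B m) * (‖md.L (n + 1) a‖ ^ 2 * ip.dist' m ^ 2))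
              + 2 * (Fintype.card (Lv B m) * (fro a * O)) := by
            gcongr
            · refine (sum_nsq_blk_le hm _).trans ?_
              gcongr
              rw [← mul_pow]
              exact ip.near_inv_emb hm a (hS a ha)
            · refine (sum_nsq_blk_le hm _).trans ?_
              gcongr
              exact (ip.nsq_mul_pm_le m _).trans hoA
        _ = _ := by ring
    simp only [he, Finset.sum_add_distrib]
    rw [Finset.sum_comm]
    refine (add_le_add t1 (Finset.sum_le_sum t2)).trans_eq ?_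
    simp only [← Finset.mul_sum, Finset.sum_add_distrib, ← Finset.sum_mul]
    ring
  have hcard := card_pos B m
  have havg : (Fintype.card (Lv B m) : ℂ) *
      (ntr (ip.pm (n + 1) * Z) - ⟪md.vac, ip.pv⟫_ℂ * ntr Z)
      = ∑ w, (ntr (fb w * Z) - ntr (fb w) * ntr Z) := by
    have h1 := sum_ntr_blk hm (f * embL hm Z)
    simp only [blk_mul_embL] at h1
    rw [Finset.sum_sub_distrib, ← Finset.sum_mul, show ∑ w, ntr (fb w) = _ from sum_ntr_blk hm f,
      show ∑ w, ntr (fb w * Z) = _ from h1, ntr_mul_comm f, hf, ip.ntr_emb_pm hm Z, ip.ntr_pm m,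
      ntr_mul_comm Z]
    ring
  have hbound : (Fintype.card (Lv B m) : ℝ) *
      ‖ntr (ip.pm (n + 1) * Z) - ⟪md.vac, ip.pv⟫_ℂ * ntr Z‖
      ≤ ∑ w, (10 * (1 / 2 : ℝ) ^ n + 2 / η * e w) := by
    have := congrArg norm havg
    rw [norm_mul, Complex.norm_natCast] at this
    rw [this]
    exact (norm_sum_le _ _).trans (Finset.sum_le_sum fun w _ => hpoint w)
  rw [Finset.sum_add_distrib, ← Finset.mul_sum _ _ (2 / η)] at hbound
  simp only [Finset.sum_const, Finset.card_univ, nsmul_eq_mul] at hbound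
  have h5 := mul_le_mul_of_nonneg_left hsum (show (0 : ℝ) ≤ 2 / η by positivity)
  refine le_of_mul_le_mul_left ?_ hcard
  linarith

lemma pm_trace_close {md : Model multB H} (ip : InvProj md) (n : ℕ)
    (Z : Matrix (Lv multB (n + 1)) (Lv multB (n + 1)) ℂ)
    (hZ : LastFree (s := fun i : Fin (n + 1) => multB i) Z) (hZc : ∀ z, nsq (Z * z) ≤ nsq z) :
    ‖ntr (ip.pm (n + 1) * Z) - ⟪md.vac, ip.pv⟫_ℂ * ntr Z‖ ≤ 14 * (1 / 2 : ℝ) ^ n := by
  set s : Fin (n + 1) → ℕ := fun i => multB i with hs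
  have hη := eta_pos s
  have hM := mass_pos s
  set L := 1 + ∑ a ∈ tests s, ‖md.L (n + 1) a‖ ^ 2 with hL
  have hlim : Tendsto (fun m => 14 * (1 / 2 : ℝ) ^ n + 2 / eta s * (2 * (L * ip.dist' m ^ 2)))
      atTop (𝓝 (14 * (1 / 2 : ℝ) ^ n)) := by
    have h2 := (tendsto_const_nhds (x := 14 * (1 / 2 : ℝ) ^ n)).add
      ((tendsto_const_nhds (x := 2 / eta s)).mul
        ((tendsto_const_nhds (x := (2 : ℝ))).mul
          ((tendsto_const_nhds (x := L)).mul (ip.tendsto_dist'.pow 2))))
    simpa using h2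
  refine ge_of_tendsto hlim (Filter.eventually_atTop.2 ⟨n + 1, fun m hm => ?_⟩)
  refine (window_bound ip hm hη (tests s) (tests_spec s).1 (tests_spec s).2 Z hZ hZc).trans ?_
  have hmass : 1 + ∑ a ∈ tests s, fro a = mass s := rfl
  rw [hmass, ← hL]
  set O := ∑ j ∈ univ.filter (fun j : Fin m => n + 1 ≤ j.val), offd j (ip.pm m) with hO
  have hO' : O ≤ (1 / 2 : ℝ) ^ n * (eta s / mass s) := by
    calc O ≤ ∑ j ∈ univ.filter (fun j : Fin m => n + 1 ≤ j.val),
          (1 / 2 : ℝ) ^ j.val * (eta s / mass s) := by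
          refine Finset.sum_le_sum fun j hj => ?_
          have hj' : n < j.val := (Finset.mem_filter.1 hj).2
          exact (ip.offd_pm_le j).trans (site_ratio_le hj')
      _ = (∑ j ∈ Finset.Ico (n + 1) m, (1 / 2 : ℝ) ^ j) * (eta s / mass s) := by
          rw [← Finset.sum_mul]
          congr 1
          refine Finset.sum_bij (fun j _ => j.val) ?_ ?_ ?_ ?_
          · intro j hj; exact Finset.mem_Ico.2 ⟨(Finset.mem_filter.1 hj).2, j.isLt⟩
          · intro a _ b _ hab; exact Fin.ext hab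
          · intro j hj
            exact ⟨⟨j, (Finset.mem_Ico.1 hj).2⟩,
              Finset.mem_filter.2 ⟨Finset.mem_univ _, (Finset.mem_Ico.1 hj).1⟩, rfl⟩
          · intros; rfl
      _ ≤ _ := by
          gcongr
          refine (geom_sum_Ico_le_of_lt_one (by norm_num) (by norm_num)).trans_eq ?_
          rw [pow_succ]; ring
  have h6 : 2 / eta s * (2 * (mass s * O)) ≤ 4 * (1 / 2 : ℝ) ^ n := by
    calc 2 / eta s * (2 * (mass s * O))
        ≤ 2 / eta s * (2 * (mass s * ((1 / 2 : ℝ) ^ n * (eta s / mass s)))) := by gcongr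
      _ = _ := by field_simp; ring
  linarith

lemma lastFree_embL {k n : ℕ} (h : k ≤ n) (X : Matrix (Lv B k) (Lv B k) ℂ) :
    LastFree (s := fun i : Fin (n + 1) => B i) (embL (le_trans h (Nat.le_succ n)) X) := by
  constructor
  · intro u v huv
    rw [embL_apply, if_neg]
    exact fun hs => huv (hs (Fin.last n) (by simpa using h))
  · intro u v u' v' h1 h2 h3 h4
    have e : ∀ {a a' : Lv B (n + 1)}, (∀ i : Fin n, a i.castSucc = a' i.castSucc) →
        trunc (le_trans h (Nat.le_succ n)) a = trunc (le_trans h (Nat.le_succ n)) a' := by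
      intro a a' ha
      funext i
      exact ha ⟨i.val, lt_of_lt_of_le i.isLt h⟩
    have hs : SameTail k u v ↔ SameTail k u' v' := by
      refine forall_congr' fun i => forall_congr' fun _ => ?_
      rcases Fin.eq_castSucc_or_eq_last i with ⟨i', rfl⟩ | rfl
      · rw [h3 i', h4 i']
      · exact iff_of_true h1 h2
    rw [embL_apply, embL_apply, e h3, e h4]
    simp only [hs]

lemma pm_eq_scalar {md : Model multB H} (ip : InvProj md) (k : ℕ) :
    ip.pm k = ⟪md.vac, ip.pv⟫_ℂ • 1 := by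
  set t := ⟪md.vac, ip.pv⟫_ℂ with ht
  have key : ∀ X : Matrix (Lv multB k) (Lv multB k) ℂ, fro X ≤ 1 →
      ntr (ip.pm k * X) = t * ntr X := by
    intro X hX
    have hb : ∀ n, k ≤ n → ‖ntr (ip.pm k * X) - t * ntr X‖ ≤ 14 * (1 / 2 : ℝ) ^ n := by
      intro n hn
      have hk : k ≤ n + 1 := le_trans hn (Nat.le_succ n)
      have hc : ∀ z, nsq (embL hk X * z) ≤ nsq z := fun z =>
        (nsq_embL_mul_le hk X z).trans (mul_le_of_le_one_left (nsq_nonneg z) hX)
      have h1 := pm_trace_close ip n (embL hk X) (lastFree_embL hn X) hc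
      rw [ntr_mul_comm, ip.ntr_emb_pm hk, ntr_embL, ntr_mul_comm] at h1
      exact h1
    have hlim : Tendsto (fun n : ℕ => 14 * (1 / 2 : ℝ) ^ n) atTop (𝓝 0) := by
      simpa using (tendsto_pow_atTop_nhds_zero_of_lt_one (show (0 : ℝ) ≤ 1 / 2 by norm_num)
        (by norm_num)).const_mul (14 : ℝ)
    have := ge_of_tendsto hlim (Filter.eventually_atTop.2 ⟨k, hb⟩)
    exact sub_eq_zero.1 (norm_le_zero_iff.1 this)
  ext u v
  have hf : fro (Matrix.single v u (1 : ℂ)) ≤ 1 := by
    refine le_of_eq ?_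
    unfold fro
    rw [Finset.sum_eq_single v, Finset.sum_eq_single u] <;>
      simp +contextual [eq_comm, Matrix.single_apply]
  have h := key _ hf
  rw [← ntr_smul, ntr_mul_comm] at h
  unfold ntr at h
  have hc : (Fintype.card (Lv multB k) : ℂ) ≠ 0 := by exact_mod_cast Fintype.card_pos.ne'
  rw [div_left_inj' hc, Finset.sum_eq_single v, Finset.sum_eq_single v] at h
  · rw [Matrix.single_mul_apply_same, one_mul] at h
    rw [h]
    by_cases huv : u = v
    · subst huv; simp
    · simp [huv]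
  all_goals simp +contextual [eq_comm]

lemma invProj_scalar {md : Model multB H} (ip : InvProj md) :
    ip.P = 0 ∨ ip.P = 1 := by
  set t := ⟪md.vac, ip.pv⟫_ℂ with ht
  have hpv : ip.pv = t • md.vac := by
    have h : ∀ m, ‖ip.pv - t • md.vac‖ = ip.dist' m := by
      intro m
      rw [InvProj.dist', pm_eq_scalar ip m, Model.vec_smul, Model.vec_one]
    have := tendsto_nhds_unique (tendsto_const_nhds.congr h) ip.tendsto_dist'
    exact sub_eq_zero.1 (norm_eq_zero.1 this)
  have hP : ip.P = t • (1 : H →L[ℂ] H) := by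
    refine md.ext_vec _ _ 0 fun m _ X => ?_
    rw [ip.P_vec, hpv, map_smul, smul_apply, one_apply_eq_self,
      Model.vec, md.vac_eq]
  have ht2 : t * t = t := by
    have h := ip.idem md.vac
    rw [hP] at h
    simp only [smul_apply, one_apply_eq_self, smul_smul] at h
    have hv : md.vac ≠ 0 := fun h0 => by simpa [h0] using md.norm_vac
    exact smul_left_injective ℂ hv h
  rcases mul_eq_zero.1 (show t * (t - 1) = 0 by rw [mul_sub, ht2, mul_one, sub_self]) with h | h
  · left; rw [hP, h, zero_smul]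
  · right; rw [hP, sub_eq_zero.1 h, one_smul]

theorem transitive_commutant (md : Model multB H) (M : Submodule ℂ H)
    (hM : IsClosed (M : Set H))
    (hinv : ∀ A : H →L[ℂ] H, A * md.op = md.op * A → ∀ x ∈ M, A x ∈ M) :
    M = ⊥ ∨ M = ⊤ := by
  have : CompleteSpace M := hM.completeSpace_coe
  have hfix : ∀ x ∈ M, M.starProjection x = x := fun x hx =>
    Submodule.starProjection_eq_self_iff.2 hx
  have hmem : ∀ x, M.starProjection x ∈ M := fun x => M.starProjection_apply_mem x
  have hsa : ∀ x y, ⟪M.starProjection x, y⟫_ℂ = ⟪x, M.starProjection y⟫_ℂ :=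
    fun x y => M.inner_starProjection_left_eq_right x y
  have hA : ∀ A : H →L[ℂ] H, A * md.op = md.op * A →
      ∀ x, M.starProjection (A (M.starProjection x)) = A (M.starProjection x) :=
    fun A hA x => hfix _ (hinv A hA _ (hmem x))
  let ip : InvProj md :=
    { P := M.starProjection
      sa := hsa
      idem := fun x => hfix _ (hmem x)
      commR := by
        intro n X x
        rw [← hA _ (md.op_comm_R n X) x]
        refine ext_inner_left ℂ fun y => ?_
        have h1 := hA _ (md.op_comm_R n Xᴴ) y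
        rw [← hsa, ← ContinuousLinearMap.adjoint_inner_left, md.R_adj, ← h1, hsa,
          ← md.R_adj, ContinuousLinearMap.adjoint_inner_left, hsa]
      invL := fun n a ha => hA _ (md.op_comm_L n a ha) }
  rcases invProj_scalar ip with h | h
  · left
    refine (Submodule.eq_bot_iff _).2 fun x hx => ?_
    rw [← hfix x hx, show M.starProjection = 0 from h]; rfl
  · right
    refine (Submodule.eq_top_iff').2 fun x => ?_
    have h2 := hmem x
    rwa [show M.starProjection = 1 from h] at h2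

theorem goalMain : GoalMain := by
  obtain ⟨md⟩ := goalModel multB
  exact ⟨md.op, md.op_ne_smul, transitive_commutant md⟩

end

end Vale.Agent.P131
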