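import Vale.Agent.P131.Window

/-!
# Normalised traces, norms and averages over windows
-/

namespace Vale.Agent.P131

open scoped Matrix ComplexConjugate
open Finset

noncomputable section

section generic

variable {ι : Type*} [Fintype ι]

/-- Squared unnormalised Hilbert-Schmidt norm. -/
def fro (X : Matrix ι ι ℂ) : ℝ := ∑ x, ∑ y, ‖X x y‖ ^ 2

lemma fro_nonneg (X : Matrix ι ι ℂ) : 0 ≤ fro X := by unfold fro; positivity

lemma nsq_eq (X : Matrix ι ι ℂ) : nsq X = fro X / Fintype.card ι := rfl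

lemma nsq_nonneg (X : Matrix ι ι ℂ) : 0 ≤ nsq X := by unfold nsq; positivity

lemma fro_conjTranspose (X : Matrix ι ι ℂ) : fro Xᴴ = fro X := by
  unfold fro; rw [Finset.sum_comm]; simp

lemma nsq_conjTranspose (X : Matrix ι ι ℂ) : nsq Xᴴ = nsq X := by
  rw [nsq_eq, nsq_eq, fro_conjTranspose]

lemma fro_smul (c : ℂ) (X : Matrix ι ι ℂ) : fro (c • X) = ‖c‖ ^ 2 * fro X := by
  unfold fro; simp [Finset.mul_sum, mul_pow]

lemma nsq_smul (c : ℂ) (X : Matrix ι ι ℂ) : nsq (c • X) = ‖c‖ ^ 2 * nsq X := by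
  rw [nsq_eq, nsq_eq, fro_smul, mul_div_assoc]

lemma nsq_neg (X : Matrix ι ι ℂ) : nsq (-X) = nsq X := by unfold nsq; simp

lemma nsq_add_le (X Y : Matrix ι ι ℂ) : nsq (X + Y) ≤ 2 * nsq X + 2 * nsq Y := by
  unfold nsq
  rw [← mul_div_assoc, ← mul_div_assoc, ← add_div]
  gcongr
  simp only [Finset.mul_sum, ← Finset.sum_add_distrib]
  gcongr with x _ y _
  rw [Matrix.add_apply]
  have := norm_add_le (X x y) (Y x y)
  nlinarith [sq_nonneg (‖X x y‖ - ‖Y x y‖), norm_nonneg (X x y + Y x y)]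

lemma nsq_sub_le (X Y : Matrix ι ι ℂ) : nsq (X - Y) ≤ 2 * nsq X + 2 * nsq Y := by
  rw [sub_eq_add_neg]; simpa [nsq_neg] using nsq_add_le X (-Y)

lemma ntr_add (X Y : Matrix ι ι ℂ) : ntr (X + Y) = ntr X + ntr Y := by
  unfold ntr; simp [Finset.sum_add_distrib, add_div]

lemma ntr_sub (X Y : Matrix ι ι ℂ) : ntr (X - Y) = ntr X - ntr Y := by
  unfold ntr; simp [Finset.sum_sub_distrib, sub_div]

lemma ntr_smul (c : ℂ) (X : Matrix ι ι ℂ) : ntr (c • X) = c * ntr X := by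
  unfold ntr; simp [← Finset.mul_sum, mul_div_assoc]

lemma ntr_conjTranspose (X : Matrix ι ι ℂ) : ntr Xᴴ = conj (ntr X) := by
  unfold ntr; simp [map_sum, map_div₀]

lemma ntr_mul_comm (X Y : Matrix ι ι ℂ) : ntr (X * Y) = ntr (Y * X) := by
  unfold ntr
  congr 1
  simp only [Matrix.mul_apply]
  rw [Finset.sum_comm]
  exact Finset.sum_congr rfl fun _ _ => Finset.sum_congr rfl fun _ _ => mul_comm _ _

lemma ntr_conjTranspose_mul (X Y : Matrix ι ι ℂ) :
    ntr (Xᴴ * Y) = (∑ x, ∑ y, conj (X x y) * Y x y) / Fintype.card ι := by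
  unfold ntr
  congr 1
  simp only [Matrix.mul_apply, Matrix.conjTranspose_apply]
  exact Finset.sum_comm

lemma ntr_self (X : Matrix ι ι ℂ) : ntr (Xᴴ * X) = (nsq X : ℂ) := by
  rw [ntr_conjTranspose_mul]
  unfold nsq
  push_cast
  congr 1
  simp [Complex.conj_mul']

lemma nsq_one [DecidableEq ι] [Nonempty ι] : nsq (1 : Matrix ι ι ℂ) = 1 := by
  have : (Fintype.card ι : ℝ) ≠ 0 := by positivity
  unfold nsq
  rw [div_eq_one_iff_eq this]
  have h : ∀ x : ι, ∑ y, ‖(1 : Matrix ι ι ℂ) x y‖ ^ 2 = 1 := by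
    intro x
    rw [Finset.sum_eq_single x] <;> simp +contextual [eq_comm]
  simp [h]

lemma sq_norm_ntr_le (X : Matrix ι ι ℂ) : ‖ntr X‖ ^ 2 ≤ nsq X := by
  rcases isEmpty_or_nonempty ι with h | h
  · simp [ntr, nsq]
  · have hc : (0 : ℝ) < Fintype.card ι := by positivity
    unfold ntr nsq
    rw [norm_div, Complex.norm_natCast, div_pow, div_le_div_iff₀ (by positivity) hc]
    have h1 : ‖∑ x, X x x‖ ^ 2 ≤ (∑ x, ‖X x x‖) ^ 2 := by gcongr; exact norm_sum_le _ _
    have h2 := sq_sum_le_card_mul_sum_sq (s := (univ : Finset ι)) (f := fun x => ‖X x x‖)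
    rw [Finset.card_univ] at h2
    have h3 : ∑ x, ‖X x x‖ ^ 2 ≤ ∑ x, ∑ y, ‖X x y‖ ^ 2 := Finset.sum_le_sum fun x _ =>
      Finset.single_le_sum (f := fun y => ‖X x y‖ ^ 2) (fun _ _ => by positivity) (mem_univ x)
    nlinarith [mul_le_mul_of_nonneg_left h3 (sq_nonneg (Fintype.card ι : ℝ)),
      mul_le_mul_of_nonneg_left (h1.trans h2) hc.le]

lemma norm_ntr_le_one (X : Matrix ι ι ℂ) (h : nsq X ≤ 1) : ‖ntr X‖ ≤ 1 := by
  nlinarith [sq_norm_ntr_le X, norm_nonneg (ntr X)]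

end generic

section levels

variable {B : ℕ → ℕ} {n m : ℕ}

lemma card_pos (B : ℕ → ℕ) (n : ℕ) : (0 : ℝ) < Fintype.card (Lv B n) := by positivity

lemma sum_blk_le (h : n ≤ m) (F : Lv B m → Lv B m → ℝ) (hF : ∀ u v, 0 ≤ F u v) :
    ∑ w : Lv B m, ∑ x : Lv B n, ∑ y : Lv B n, F (glue x w) (glue y w)
      ≤ Fintype.card (Lv B n) * ∑ u, ∑ v, F u v := by
  rw [Finset.sum_comm, ← nsmul_eq_mul, ← sum_glue h]
  refine Finset.sum_le_sum fun x _ => Finset.sum_le_sum fun w _ => ?_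
  calc ∑ y : Lv B n, F (glue x w) (glue y w)
      = ∑ v ∈ (univ : Finset (Lv B n)).image (fun y => glue y w), F (glue x w) v :=
        (Finset.sum_image fun a _ b _ hab => glue_injective h w hab).symm
    _ ≤ ∑ v, F (glue x w) v :=
        Finset.sum_le_sum_of_subset_of_nonneg (subset_univ _) fun v _ _ => hF _ _

lemma sum_nsq_blk_le (h : n ≤ m) (X : Matrix (Lv B m) (Lv B m) ℂ) :
    ∑ w, nsq (blk n X w) ≤ Fintype.card (Lv B m) * nsq X := by
  have h1 := sum_blk_le h (fun u v => ‖X u v‖ ^ 2) (fun u v => by positivity)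
  unfold nsq
  rw [← Finset.sum_div, div_le_iff₀ (card_pos B n)]
  refine h1.trans_eq ?_
  field_simp [(card_pos B m).ne']

lemma sum_ntr_blk (h : n ≤ m) (X : Matrix (Lv B m) (Lv B m) ℂ) :
    ∑ w, ntr (blk n X w) = Fintype.card (Lv B m) * ntr X := by
  have h1 := sum_glue h (fun u => X u u)
  unfold ntr blk
  rw [← Finset.sum_div, Finset.sum_comm, h1, nsmul_eq_mul]
  have : (Fintype.card (Lv B n) : ℂ) ≠ 0 := by exact_mod_cast Fintype.card_pos.ne'
  have : (Fintype.card (Lv B m) : ℂ) ≠ 0 := by exact_mod_cast Fintype.card_pos.ne'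
  field_simp

lemma ntr_embL (h : n ≤ m) (a : Matrix (Lv B n) (Lv B n) ℂ) :
    ntr (embL h a) = ntr a := by
  have hb : ∀ w, blk n (embL h a) w = a := by
    intro w; ext x y
    rw [blk, embL_apply, if_pos (sameTail_glue_glue x y w), trunc_glue, trunc_glue]
  have h1 := sum_ntr_blk h (embL h a)
  simp only [hb, Finset.sum_const, Finset.card_univ, nsmul_eq_mul] at h1
  exact (mul_left_cancel₀ (by exact_mod_cast Fintype.card_pos.ne') h1).symm

lemma embL_conjTranspose (h : n ≤ m) (a : Matrix (Lv B n) (Lv B n) ℂ) :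
    (embL h a)ᴴ = embL h aᴴ := by
  ext u v
  rw [Matrix.conjTranspose_apply, embL_apply, embL_apply]
  have : SameTail n v u ↔ SameTail n u v :=
    ⟨fun hs i hi => (hs i hi).symm, fun hs i hi => (hs i hi).symm⟩
  by_cases hs : SameTail n u v
  · rw [if_pos hs, if_pos (this.2 hs)]; rfl
  · rw [if_neg hs, if_neg (mt this.1 hs), star_zero]

lemma embL_smul (h : n ≤ m) (c : ℂ) (a : Matrix (Lv B n) (Lv B n) ℂ) :
    embL h (c • a) = c • embL h a := by
  ext u v
  simp only [Matrix.smul_apply, embL_apply]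
  split_ifs <;> simp

lemma nsq_embL_mul_le (h : n ≤ m) (a : Matrix (Lv B n) (Lv B n) ℂ)
    (X : Matrix (Lv B m) (Lv B m) ℂ) : nsq (embL h a * X) ≤ fro a * nsq X := by
  have hN : (0 : ℝ) < Fintype.card (Lv B n) := card_pos B n
  have key : (Fintype.card (Lv B n) : ℝ) * fro (embL h a * X) ≤
      Fintype.card (Lv B n) * (fro a * fro X) := by
    have e1 : ∑ x : Lv B n, ∑ w : Lv B m, ∑ z, ‖(embL h a * X) (glue x w) z‖ ^ 2
        = (Fintype.card (Lv B n) : ℝ) * fro (embL h a * X) := by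
      rw [sum_glue h (fun u => ∑ z, ‖(embL h a * X) u z‖ ^ 2), nsmul_eq_mul]; rfl
    have e2 : ∑ y : Lv B n, ∑ w : Lv B m, ∑ z, ‖X (glue y w) z‖ ^ 2
        = (Fintype.card (Lv B n) : ℝ) * fro X := by
      rw [sum_glue h (fun u => ∑ z, ‖X u z‖ ^ 2), nsmul_eq_mul]; rfl
    calc (Fintype.card (Lv B n) : ℝ) * fro (embL h a * X)
        = ∑ x : Lv B n, ∑ w : Lv B m, ∑ z, ‖(embL h a * X) (glue x w) z‖ ^ 2 := e1.symm
      _ ≤ ∑ x : Lv B n, ∑ w : Lv B m, ∑ z,
            (∑ y, ‖a x y‖ ^ 2) * ∑ y, ‖X (glue y w) z‖ ^ 2 := by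
          refine Finset.sum_le_sum fun x _ => Finset.sum_le_sum fun w _ =>
            Finset.sum_le_sum fun z _ => ?_
          rw [embL_mul_apply h a X x w z]
          have h1 : ‖∑ y, a x y * X (glue y w) z‖ ≤ ∑ y, ‖a x y‖ * ‖X (glue y w) z‖ :=
            (norm_sum_le _ _).trans_eq (Finset.sum_congr rfl fun y _ => norm_mul _ _)
          calc ‖∑ y, a x y * X (glue y w) z‖ ^ 2
              ≤ (∑ y, ‖a x y‖ * ‖X (glue y w) z‖) ^ 2 := by gcongr
            _ ≤ _ := Finset.sum_mul_sq_le_sq_mul_sq _ _ _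
      _ = fro a * ∑ y : Lv B n, ∑ w : Lv B m, ∑ z, ‖X (glue y w) z‖ ^ 2 := by
          simp only [← Finset.mul_sum]
          rw [← Finset.sum_mul]
          congr 1
          conv_rhs => rw [Finset.sum_comm]
          exact Finset.sum_congr rfl fun w _ => Finset.sum_comm
      _ = _ := by rw [e2]; ring
  rw [nsq_eq, nsq_eq, ← mul_div_assoc]
  gcongr
  exact le_of_mul_le_mul_left key hN

/-- The part of `f` off the diagonal of site `j`. -/
def offd (j : Fin m) (f : Matrix (Lv B m) (Lv B m) ℂ) : ℝ :=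
  (∑ u, ∑ v, if u j = v j then 0 else ‖f u v‖ ^ 2) / Fintype.card (Lv B m)

lemma offd_nonneg (j : Fin m) (f : Matrix (Lv B m) (Lv B m) ℂ) : 0 ≤ offd j f := by
  unfold offd
  refine div_nonneg (Finset.sum_nonneg fun u _ => Finset.sum_nonneg fun v _ => ?_)
    (by positivity)
  split_ifs <;> positivity

lemma nsq_offTail_le (f : Matrix (Lv B m) (Lv B m) ℂ) :
    nsq (offTail n f) ≤ ∑ j ∈ univ.filter (fun j : Fin m => n ≤ j.val), offd j f := by
  unfold nsq offd
  rw [← Finset.sum_div]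
  refine div_le_div_of_nonneg_right ?_ (by positivity)
  conv_rhs => rw [Finset.sum_comm]
  refine Finset.sum_le_sum fun u _ => ?_
  conv_rhs => rw [Finset.sum_comm]
  refine Finset.sum_le_sum fun v _ => ?_
  unfold offTail
  by_cases hs : SameTail n u v
  · rw [if_pos hs]; simp only [norm_zero, ne_eq, OfNat.ofNat_ne_zero, not_false_eq_true,
      zero_pow]
    exact Finset.sum_nonneg fun j _ => by split_ifs <;> positivity
  · rw [if_neg hs]
    obtain ⟨j, hj, hne⟩ : ∃ j : Fin m, n ≤ j.val ∧ u j ≠ v j := by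
      simpa [SameTail] using hs
    refine le_trans (le_of_eq ?_) (Finset.single_le_sum
      (f := fun i => if u i = v i then (0 : ℝ) else ‖f u v‖ ^ 2)
      (fun i _ => by split_ifs <;> positivity) (show j ∈ _ from mem_filter.2 ⟨mem_univ _, hj⟩))
    rw [if_neg hne]

end levels

end

end Vale.Agent.P131
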