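import Vale.Agent.P131.Site

/-!
# The operator attached to a standard representation
-/

namespace Vale.Agent.P131

open scoped Matrix ComplexConjugate InnerProductSpace
open Finset

noncomputable section

variable {B : ℕ → ℕ}

section levels

lemma lift_add {n : ℕ} {s : Fin n → ℕ} (i : Fin n)
    (M M' : Matrix (Site i (s i)) (Site i (s i)) ℂ) :
    lift i (M + M') = lift i M + lift i M' := by
  ext u v; simp only [lift_apply, Matrix.add_apply]; split_ifs <;> simp

lemma lift_comm_tMat {n : ℕ} (s : Fin n → ℕ) (i : Fin n)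
    (M : Matrix (Site i (s i)) (Site i (s i)) ℂ)
    (hM : M * jMat i (s i) = jMat i (s i) * M) :
    lift i M * tMat s = tMat s * lift i M := by
  rw [tMat, Finset.mul_sum, Finset.sum_mul]
  refine Finset.sum_congr rfl fun k _ => ?_
  by_cases h : i = k
  · subst h; rw [lift_mul, lift_mul, hM]
  · exact lift_comm h _ _

lemma embL_lift_last {j m : ℕ} (h : j + 1 ≤ m) (M : Matrix (Site j (B j)) (Site j (B j)) ℂ) :
    embL h (lift (s := fun i : Fin (j + 1) => B i) (Fin.last j) M)
      = lift (s := fun i : Fin m => B i) ⟨j, h⟩ M := by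
  ext u v
  rw [embL_apply, lift_apply, lift_apply]
  by_cases H : ∀ k : Fin m, k ≠ ⟨j, h⟩ → u k = v k
  · rw [if_pos H, if_pos, if_pos]
    · rfl
    · intro k hk
      exact H (Fin.castLE h k) (fun e => hk (Fin.ext (by simpa using congrArg Fin.val e)))
    · intro k hk
      exact H k (fun e => by rw [e] at hk; simp at hk)
  · rw [if_neg H]
    by_cases hs : SameTail (j + 1) u v
    · rw [if_pos hs, if_neg]
      intro h'
      apply H
      intro k hk
      rcases Nat.lt_or_ge k.val (j + 1) with hlt | hge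
      · exact h' ⟨k.val, hlt⟩ (fun e => hk (Fin.ext (by simpa using congrArg Fin.val e)))
      · exact hs k hge
    · rw [if_neg hs]

lemma trunc_update {n m : ℕ} (h : n ≤ m) (i : Fin m) (hi : n ≤ i.val) (u : Lv B m)
    (z : Site i (B i)) : trunc h (Function.update u i z) = trunc h u := by
  funext k
  refine Function.update_of_ne ?_ _ _
  intro e
  have := congrArg Fin.val e
  simp at this
  omega

lemma embL_lift_comm {n m : ℕ} (h : n ≤ m) (a : Matrix (Lv B n) (Lv B n) ℂ) (i : Fin m)
    (hi : n ≤ i.val) (M : Matrix (Site i (B i)) (Site i (B i)) ℂ) :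
    embL h a * lift (s := fun i : Fin m => B i) i M
      = lift (s := fun i : Fin m => B i) i M * embL h a := by
  ext u v
  rw [lift_mul_apply, mul_lift_apply]
  refine (Finset.sum_eq_single_of_mem (u i) (mem_univ _) ?_).trans ?_
  · intro z _ hz
    rw [embL_apply, if_neg, zero_mul]
    intro hs; exact hz (by simpa using (hs i hi).symm)
  refine Eq.symm ((Finset.sum_eq_single_of_mem (v i) (mem_univ _) ?_).trans ?_)
  · intro z _ hz
    rw [embL_apply, if_neg, mul_zero]
    intro hs; exact hz (by simpa using hs i hi)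
  rw [embL_apply, embL_apply, trunc_update h i hi, trunc_update h i hi, mul_comm]
  congr 1
  have : SameTail n (Function.update u i (v i)) v ↔ SameTail n u (Function.update v i (u i)) := by
    refine forall_congr' fun k => forall_congr' fun _ => ?_
    by_cases hk : k = i
    · subst hk; simp
    · rw [Function.update_of_ne hk, Function.update_of_ne hk]
  simp only [this]

lemma jMat_mul_apply (j b : ℕ) (x : Site j b) (F : Site j b → ℂ) :
    ∑ z, jMat j b x z * F z = if h : x.1.val + 1 < dimSite j then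
      coef j x.2.val * F (⟨x.1.val + 1, h⟩, x.2) else 0 := by
  split_ifs with h
  · rw [Finset.sum_eq_single_of_mem (⟨x.1.val + 1, h⟩, x.2) (mem_univ _)]
    · simp [jMat]
    · intro z _ hz
      rw [jMat, if_neg, zero_mul]
      exact fun h' => hz (Prod.ext (Fin.ext h'.1.symm) h'.2.symm)
  · refine Finset.sum_eq_zero fun z _ => ?_
    rw [jMat, if_neg, zero_mul]
    exact fun h' => h (by have := z.1.isLt; omega)

lemma norm_coef_le (j k : ℕ) : ‖coef j k‖ ≤ (1 / 2) ^ j := by
  simp only [coef, norm_mul, norm_pow]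
  rw [show ‖(1 / 2 : ℂ)‖ = 1 / 2 by norm_num]
  exact mul_le_of_le_one_right (by positivity) (pow_le_one₀ (by norm_num) (by norm_num))

/-- Raise the shift index of one coordinate. -/
def upShift {m : ℕ} (j : Fin m) (u : Lv B m) : Lv B m :=
  Function.update u j (if h : (u j).1.val + 1 < dimSite j then ⟨(u j).1.val + 1, h⟩
    else (u j).1, (u j).2)

lemma nsq_jMat_mul_le {m : ℕ} (i : Fin m) (X : Matrix (Lv B m) (Lv B m) ℂ) :
    nsq (lift (s := fun i : Fin m => B i) i (jMat i (B i)) * X)
      ≤ ((1 / 2) ^ i.val) ^ 2 * nsq X := by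
  rw [nsq_eq, nsq_eq, ← mul_div_assoc]
  gcongr
  unfold fro
  rw [Finset.mul_sum]
  have hrow : ∀ u : Lv B m, ∑ v, ‖(lift (s := fun i : Fin m => B i) i (jMat i (B i)) * X) u v‖ ^ 2
      ≤ if (u i).1.val + 1 < dimSite i then
          ((1 / 2) ^ i.val) ^ 2 * ∑ v, ‖X (upShift i u) v‖ ^ 2 else 0 := by
    intro u
    split_ifs with h
    · rw [Finset.mul_sum]
      refine Finset.sum_le_sum fun v _ => ?_
      rw [lift_mul_apply, jMat_mul_apply _ _ _ (fun z => X (Function.update u i z) v), dif_pos h,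
        norm_mul, mul_pow]
      have e : Function.update u i (⟨(u i).1.val + 1, h⟩, (u i).2) = upShift i u := by
        simp [upShift, h]
      rw [e]
      gcongr
      exact norm_coef_le _ _
    · refine le_of_eq (Finset.sum_eq_zero fun v _ => ?_)
      rw [lift_mul_apply, jMat_mul_apply _ _ _ (fun z => X (Function.update u i z) v), dif_neg h]
      simp
  refine (Finset.sum_le_sum fun u _ => hrow u).trans ?_
  rw [← Finset.sum_filter, ← Finset.mul_sum, ← Finset.mul_sum]
  gcongr
  rw [← Finset.sum_image (f := fun u => ∑ v, ‖X u v‖ ^ 2) (g := upShift i)]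
  · exact Finset.sum_le_sum_of_subset_of_nonneg (subset_univ _) fun u _ _ => by positivity
  · intro a ha b hb hab
    simp only [coe_filter, mem_univ, true_and, Set.mem_ofPred_eq] at ha hb
    funext k
    by_cases hk : k = i
    · subst hk
      have := congrFun hab k
      simp only [upShift, Function.update_self, dif_pos ha, dif_pos hb, Prod.ext_iff,
        Fin.ext_iff, Nat.add_right_cancel_iff] at this
      exact Prod.ext (Fin.ext this.1) (Fin.ext this.2)
    · have := congrFun hab k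
      simpa [upShift, Function.update_of_ne hk] using this

lemma diag_lift_jMat {n : ℕ} {s : Fin n → ℕ} (i : Fin n) (u : Idx s) :
    lift i (jMat i (s i)) u u = 0 := by
  rw [lift_apply, if_pos (fun k _ => rfl)]
  simp [jMat]

lemma ntr_lift_jMat {n : ℕ} {s : Fin n → ℕ} (i : Fin n) :
    ntr (lift i (jMat i (s i))) = 0 := by
  simp [ntr, diag_lift_jMat]

lemma ntr_lift_jMat_mul {n : ℕ} {s : Fin n → ℕ} {i k : Fin n} (hik : i ≠ k) :
    ntr ((lift i (jMat i (s i)))ᴴ * lift k (jMat k (s k))) = 0 := by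
  unfold ntr
  rw [Finset.sum_eq_zero (fun u _ => ?_), zero_div]
  rw [lift_conjTranspose, lift_mul_apply]
  refine Finset.sum_eq_zero fun z _ => ?_
  rw [lift_apply]
  by_cases hz : z = u i
  · subst hz; simp [jMat]
  · rw [if_neg, mul_zero]
    intro h
    have := h i hik
    simp at this
    exact hz this

end levels

variable {H : Type} [NormedAddCommGroup H] [InnerProductSpace ℂ H] [CompleteSpace H]
  (md : Model B H)

/-- The vector attached to a matrix. -/
def Model.vec (n : ℕ) (X : Matrix (Lv B n) (Lv B n) ℂ) : H := md.L n X md.vac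

namespace Model

lemma vec_add (n : ℕ) (X Y) : md.vec n (X + Y) = md.vec n X + md.vec n Y := by
  simp [vec]

lemma vec_sub (n : ℕ) (X Y) : md.vec n (X - Y) = md.vec n X - md.vec n Y := by
  simp [vec]

lemma vec_smul (n : ℕ) (c : ℂ) (X) : md.vec n (c • X) = c • md.vec n X := by
  simp [vec]

lemma vec_one (n : ℕ) : md.vec n 1 = md.vac := by simp [vec, md.L_one]

lemma vec_emb {n m : ℕ} (h : n ≤ m) (X) : md.vec m (embL h X) = md.vec n X := by
  simp [vec, md.L_emb]

lemma L_vec (n : ℕ) (a X) : md.L n a (md.vec n X) = md.vec n (a * X) := by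
  simp [vec, md.L_mul]

lemma inner_vec (n : ℕ) (X Y : Matrix (Lv B n) (Lv B n) ℂ) :
    ⟪md.vec n X, md.vec n Y⟫_ℂ = ntr (Xᴴ * Y) := by
  have hn : ∀ Z, ((‖md.vec n Z‖ : ℝ) : ℂ) ^ 2 = ntr (Zᴴ * Z) := by
    intro Z
    rw [ntr_self, ← md.vac_norm]; simp [vec]
  have h : ∀ Z W, ⟪md.vec n Z, md.vec n Z⟫_ℂ = W → W = ntr (Zᴴ * Z) := by
    intro Z W hW; rw [← hW, inner_self_eq_norm_sq_to_K]; exact hn Z
  have a1 := h (X + Y) _ rfl
  have a2 := h (X + Complex.I • Y) _ rfl
  have a3 := h X _ rfl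
  have a4 := h Y _ rfl
  simp only [vec_add, vec_smul, inner_add_left, inner_add_right, inner_smul_left,
    inner_smul_right, Matrix.conjTranspose_add, Matrix.conjTranspose_smul, add_mul, mul_add,
    ntr_add, Matrix.smul_mul, Matrix.mul_smul, ntr_smul, Complex.conj_I, Complex.star_def]
    at a1 a2
  rw [a3, a4] at a1 a2
  linear_combination (1 / 2 : ℂ) * a1 - (Complex.I / 2) * a2 +
    ((ntr (Yᴴ * X) - ⟪md.vec n Y, md.vec n X⟫_ℂ) / 2
      + (⟪md.vec n X, md.vec n Y⟫_ℂ - ntr (Xᴴ * Y)) / 2) * Complex.I_sq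

lemma norm_vec_sq (n : ℕ) (X) : ‖md.vec n X‖ ^ 2 = nsq X := md.vac_norm n X

lemma norm_vac : ‖md.vac‖ = 1 := by
  have h := md.norm_vec_sq 0 1
  rw [vec_one, nsq_one] at h
  nlinarith [norm_nonneg md.vac]

lemma dense_ge (ξ : H) {ε : ℝ} (hε : 0 < ε) :
    ∃ n, ∀ m, n ≤ m → ∃ X, ‖md.vec m X - ξ‖ < ε := by
  obtain ⟨n, X, hX⟩ := md.dense ξ ε hε
  exact ⟨n, fun m hm => ⟨embL hm X, by rw [vec_emb]; exact hX⟩⟩

lemma ext_vec (A A' : H →L[ℂ] H) (N : ℕ) (h : ∀ m, N ≤ m → ∀ X, A (md.vec m X) = A' (md.vec m X)) :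
    A = A' := by
  have hd : Dense {y : H | A y = A' y} := by
    rw [Metric.dense_iff]
    intro ξ ε hε
    obtain ⟨n, hn⟩ := md.dense_ge ξ hε
    obtain ⟨X, hX⟩ := hn (max N n) (le_max_right _ _)
    exact ⟨md.vec _ X, by rwa [Metric.mem_ball, dist_eq_norm],
      h _ (le_max_left _ _) X⟩
  have hc : IsClosed {y : H | A y = A' y} := isClosed_eq A.continuous A'.continuous
  refine ContinuousLinearMap.ext fun y => ?_
  exact (hc.closure_eq ▸ hd y : y ∈ {y : H | A y = A' y})

lemma opNorm_L_le (n : ℕ) (a : Matrix (Lv B n) (Lv B n) ℂ) {c : ℝ} (hc : 0 ≤ c)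
    (h : ∀ m (hm : n ≤ m) X, nsq (embL hm a * X) ≤ c ^ 2 * nsq X) : ‖md.L n a‖ ≤ c := by
  refine ContinuousLinearMap.opNorm_le_bound _ hc fun ξ => ?_
  have hcl : IsClosed {y : H | ‖md.L n a y‖ ≤ c * ‖y‖} :=
    isClosed_le (md.L n a).continuous.norm (continuous_const.mul continuous_norm)
  have hd : Dense {y : H | ‖md.L n a y‖ ≤ c * ‖y‖} := by
    rw [Metric.dense_iff]
    intro ξ ε hε
    obtain ⟨k, hk⟩ := md.dense_ge ξ hε
    obtain ⟨X, hX⟩ := hk (max n k) (le_max_right _ _)
    refine ⟨md.vec _ X, by rwa [Metric.mem_ball, dist_eq_norm], ?_⟩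
    show ‖md.L n a (md.vec _ X)‖ ≤ c * ‖md.vec _ X‖
    rw [← md.L_emb n _ (le_max_left n k), L_vec]
    refine (sq_le_sq₀ (norm_nonneg _) (by positivity)).1 ?_
    rw [mul_pow, norm_vec_sq, norm_vec_sq]
    exact h _ _ X
  exact (hcl.closure_eq ▸ hd ξ : ξ ∈ {y : H | ‖md.L n a y‖ ≤ c * ‖y‖})

/-- The summands of the operator. -/
def term (j : ℕ) : H →L[ℂ] H :=
  md.L (j + 1) (lift (s := fun i : Fin (j + 1) => B i) (Fin.last j) (jMat j (B j)))

lemma norm_term_le (j : ℕ) : ‖md.term j‖ ≤ (1 / 2) ^ j := by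
  refine md.opNorm_L_le _ _ (by positivity) fun m hm X => ?_
  rw [embL_lift_last]
  exact nsq_jMat_mul_le (B := B) ⟨j, hm⟩ X

lemma summable_term : Summable md.term :=
  Summable.of_norm_bounded (summable_geometric_of_lt_one (by norm_num) (by norm_num))
    md.norm_term_le

/-- The operator. -/
def op : H →L[ℂ] H := ∑' j, md.term j

lemma op_comm_R (n : ℕ) (X) : md.R n X * md.op = md.op * md.R n X := by
  rw [op, ← md.summable_term.tsum_mul_left, ← md.summable_term.tsum_mul_right]
  exact tsum_congr fun j => (md.comm _ _ _ _).symm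

lemma op_comm_L (n : ℕ) (a : Matrix (Lv B n) (Lv B n) ℂ)
    (ha : a * tMat (fun i : Fin n => B i) = tMat (fun i : Fin n => B i) * a) :
    md.L n a * md.op = md.op * md.L n a := by
  have hsplit : md.op = md.L n (tMat (fun i : Fin n => B i)) + ∑' j, md.term (j + n) := by
    rw [op, ← md.summable_term.sum_add_tsum_nat_add n]
    congr 1
    rw [tMat, map_sum, ← Fin.sum_univ_eq_sum_range]
    refine Finset.sum_congr rfl fun i _ => ?_
    rw [term, ← md.L_emb _ n i.isLt, embL_lift_last]
  have htail : ∀ j, md.L n a * md.term (j + n) = md.term (j + n) * md.L n a := by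
    intro j
    rw [term, ← md.L_emb n (j + n + 1) (by omega), ← md.L_mul, ← md.L_mul,
      embL_lift_comm _ a (Fin.last (j + n)) (by simp)]
  have hs : Summable fun j => md.term (j + n) := (summable_nat_add_iff n).2 md.summable_term
  rw [hsplit, mul_add, add_mul, ← md.L_mul, ha, md.L_mul, ← hs.tsum_mul_left, ← hs.tsum_mul_right]
  congr 1
  exact tsum_congr htail

lemma inner_op_vac (w : H) :
    ⟪w, md.op md.vac⟫_ℂ = ∑' j, ⟪w, md.term j md.vac⟫_ℂ :=
  ((innerSL ℂ w).comp (ContinuousLinearMap.apply ℂ H md.vac)).map_tsum md.summable_term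

lemma op_ne_smul (c : ℂ) : md.op ≠ c • 1 := by
  intro h
  have h0 : ⟪md.vac, md.op md.vac⟫_ℂ = 0 := by
    rw [md.inner_op_vac]
    refine (tsum_congr fun j => ?_).trans tsum_zero
    rw [← md.vec_one (j + 1)]
    change ⟪md.vec (j + 1) 1, md.L (j + 1) _ (md.vec (j + 1) 1)⟫_ℂ = 0
    rw [L_vec, inner_vec]
    simpa using ntr_lift_jMat (s := fun i : Fin (j + 1) => B i) (Fin.last j)
  rw [h] at h0
  simp [inner_self_eq_norm_sq_to_K, md.norm_vac] at h0
  subst h0
  rw [zero_smul] at h
  have h1 := md.inner_op_vac (md.term 1 md.vac)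
  rw [h] at h1
  simp only [zero_apply, inner_zero_right] at h1
  rw [tsum_eq_single 1] at h1
  · change (0 : ℂ) = ⟪md.vec 2 _, md.vec 2 _⟫_ℂ at h1
    rw [inner_vec, ntr_self] at h1
    have h2 : nsq (lift (s := fun i : Fin 2 => B i) (Fin.last 1) (jMat 1 (B 1))) = 0 := by
      exact_mod_cast h1.symm
    rw [nsq_eq, div_eq_zero_iff] at h2
    rcases h2 with h2 | h2
    · unfold fro at h2
      let u : Lv B 2 := fun i => (0, 0)
      have h3 := (Finset.sum_eq_zero_iff_of_nonneg (fun _ _ => by positivity)).1 h2 u (mem_univ _)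
      have h4 := (Finset.sum_eq_zero_iff_of_nonneg (fun _ _ => by positivity)).1 h3
        (Function.update u (Fin.last 1) (⟨1, by decide⟩, 0)) (mem_univ _)
      rw [lift_apply, if_pos (agree_update _ _ _)] at h4
      simp [u, jMat, coef] at h4
    · exact Fintype.card_pos.ne' (by exact_mod_cast h2 : Fintype.card (Lv B 2) = 0)
  · intro j hj
    let M := max 2 (j + 1)
    have e1 : md.term 1 md.vac = md.vec M
        (lift (s := fun i : Fin M => B i) ⟨1, by omega⟩ (jMat 1 (B 1))) := by
      rw [← embL_lift_last (show 1 + 1 ≤ M by omega), vec_emb]; rfl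
    have e2 : md.term j md.vac = md.vec M
        (lift (s := fun i : Fin M => B i) ⟨j, by omega⟩ (jMat j (B j))) := by
      rw [← embL_lift_last (show j + 1 ≤ M by omega), vec_emb]; rfl
    rw [e1, e2, inner_vec]
    exact ntr_lift_jMat_mul (s := fun i : Fin M => B i) (fun e => hj (congrArg Fin.val e).symm)

end Model

end

end Vale.Agent.P131
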