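import Vale.Agent.P131.Mat

/-!
# The estimate at one site
-/

namespace Vale.Agent.P131

open scoped Matrix ComplexConjugate
open Finset

noncomputable section

section lifts

variable {n : ℕ} {s : Fin n → ℕ}

lemma update_eq_self_of_agree {i : Fin n} {u v : Idx s} (h : ∀ k', k' ≠ i → u k' = v k') :
    Function.update u i (v i) = v := by
  funext k
  by_cases hk : k = i
  · subst hk; simp
  · rw [Function.update_of_ne hk]; exact h k hk

lemma lift_apply (i : Fin n) (M : Matrix (Site i (s i)) (Site i (s i)) ℂ) (u v : Idx s) :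
    lift i M u v = if ∀ k, k ≠ i → u k = v k then M (u i) (v i) else 0 := rfl

lemma sum_agree {α : Type*} [AddCommMonoid α] (i : Fin n) (u : Idx s) (g : Idx s → α)
    (hg : ∀ v, ¬ (∀ k, k ≠ i → u k = v k) → g v = 0) :
    ∑ v, g v = ∑ z, g (Function.update u i z) := by
  symm
  refine Finset.sum_bij_ne_zero (fun z _ _ => Function.update u i z) ?_ ?_ ?_ ?_
  · intros; exact mem_univ _
  · intro a _ _ b _ _ hab; exact Function.update_injective u i hab
  · intro v _ hv
    have h : ∀ k, k ≠ i → u k = v k := not_imp_comm.1 (hg v) hv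
    exact ⟨v i, mem_univ _, by rwa [update_eq_self_of_agree h], update_eq_self_of_agree h⟩
  · intros; rfl

lemma agree_update (i : Fin n) (u : Idx s) (z : Site i (s i)) :
    ∀ k, k ≠ i → u k = Function.update u i z k :=
  fun k hk => (Function.update_of_ne hk _ _).symm

lemma agree_update_left (i : Fin n) (u : Idx s) (z : Site i (s i)) :
    ∀ k, k ≠ i → Function.update u i z k = u k :=
  fun _ hk => Function.update_of_ne hk _ _

lemma lift_mul_apply (i : Fin n) (M : Matrix (Site i (s i)) (Site i (s i)) ℂ)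
    (X : Matrix (Idx s) (Idx s) ℂ) (u v : Idx s) :
    (lift i M * X) u v = ∑ z, M (u i) z * X (Function.update u i z) v := by
  rw [Matrix.mul_apply, sum_agree i u]
  · refine Finset.sum_congr rfl fun z _ => ?_
    rw [lift_apply, if_pos (agree_update i u z), Function.update_self]
  · intro w hw; rw [lift_apply, if_neg hw, zero_mul]

lemma mul_lift_apply (i : Fin n) (M : Matrix (Site i (s i)) (Site i (s i)) ℂ)
    (X : Matrix (Idx s) (Idx s) ℂ) (u v : Idx s) :
    (X * lift i M) u v = ∑ z, X u (Function.update v i z) * M z (v i) := by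
  rw [Matrix.mul_apply, sum_agree i v]
  · refine Finset.sum_congr rfl fun z _ => ?_
    rw [lift_apply, if_pos (agree_update_left i v z), Function.update_self]
  · intro w hw
    rw [lift_apply, if_neg, mul_zero]
    exact fun h => hw fun k hk => (h k hk).symm

lemma lift_mul (i : Fin n) (M M' : Matrix (Site i (s i)) (Site i (s i)) ℂ) :
    lift i M * lift i M' = lift i (M * M') := by
  ext u v
  rw [lift_mul_apply, lift_apply]
  by_cases h : ∀ k, k ≠ i → u k = v k
  · rw [if_pos h, Matrix.mul_apply]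
    refine Finset.sum_congr rfl fun z _ => ?_
    rw [lift_apply, if_pos, Function.update_self]
    exact fun k hk => (agree_update_left i u z k hk).trans (h k hk)
  · rw [if_neg h]
    refine Finset.sum_eq_zero fun z _ => ?_
    rw [lift_apply, if_neg, mul_zero]
    exact fun h' => h fun k hk => (agree_update i u z k hk).trans (h' k hk)

lemma lift_conjTranspose (i : Fin n) (M : Matrix (Site i (s i)) (Site i (s i)) ℂ) :
    (lift i M)ᴴ = lift i Mᴴ := by
  ext u v
  rw [Matrix.conjTranspose_apply, lift_apply, lift_apply]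
  by_cases h : ∀ k, k ≠ i → u k = v k
  · rw [if_pos h, if_pos (fun k hk => (h k hk).symm)]; rfl
  · rw [if_neg h, if_neg (fun h' => h fun k hk => (h' k hk).symm), star_zero]

lemma lift_sub (i : Fin n) (M M' : Matrix (Site i (s i)) (Site i (s i)) ℂ) :
    lift i (M - M') = lift i M - lift i M' := by
  ext u v; simp only [lift_apply, Matrix.sub_apply]; split_ifs <;> simp

lemma lift_comm {i k : Fin n} (hik : i ≠ k) (M : Matrix (Site i (s i)) (Site i (s i)) ℂ)
    (M' : Matrix (Site k (s k)) (Site k (s k)) ℂ) :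
    lift i M * lift k M' = lift k M' * lift i M := by
  ext u v
  rw [lift_mul_apply, mul_lift_apply]
  refine Finset.sum_eq_single_of_mem (v i) (mem_univ _) ?_ |>.trans ?_
  · intro z _ hz
    rw [lift_apply, if_neg, mul_zero]
    intro h
    exact hz (by simpa using h i hik)
  symm
  refine Finset.sum_eq_single_of_mem (u i) (mem_univ _) ?_ |>.trans ?_
  · intro z _ hz
    rw [lift_apply, if_neg, zero_mul]
    intro h
    exact hz (by simpa using (h i hik).symm)
  rw [lift_apply, lift_apply, Function.update_of_ne hik.symm, Function.update_of_ne hik.symm]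
  by_cases h : ∀ l, l ≠ i → l ≠ k → u l = v l
  · rw [if_pos, if_pos, mul_comm]
    · intro l hl
      by_cases hli : l = i
      · subst hli; simp
      · rw [Function.update_of_ne hli]; exact h l hli hl
    · intro l hl
      by_cases hli : l = i
      · subst hli; simp
      · rw [Function.update_of_ne hli]; exact h l hli hl
  · rw [if_neg, if_neg, mul_zero, zero_mul]
    · intro h'; apply h; intro l hli hl
      simpa [Function.update_of_ne hli] using h' l hl
    · intro h'; apply h; intro l hli hl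
      simpa [Function.update_of_ne hli] using h' l hl

/-- The exchange of one coordinate. -/
def siteSwap (i : Fin n) : Idx s × Site i (s i) ≃ Idx s × Site i (s i) where
  toFun p := (Function.update p.1 i p.2, p.1 i)
  invFun p := (Function.update p.1 i p.2, p.1 i)
  left_inv p := by simp
  right_inv p := by simp

lemma sum_site (i : Fin n) (g : Site i (s i) → ℂ) :
    (Fintype.card (Site i (s i)) : ℂ) * ∑ u : Idx s, g (u i)
      = Fintype.card (Idx s) * ∑ z, g z := by
  have := Fintype.sum_equiv (siteSwap i) (fun p : Idx s × Site i (s i) => g p.2)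
    (fun p => g (p.1 i)) (fun p => by simp [siteSwap])
  rw [Fintype.sum_prod_type, Fintype.sum_prod_type] at this
  simp only [Finset.sum_const, Finset.card_univ, nsmul_eq_mul] at this
  rw [← Finset.mul_sum] at this
  exact this.symm

end lifts

/-- The weights on the shift at site `j`. -/
def gam (j : ℕ) (i : Fin (dimSite j)) : ℂ := (1 / 2) ^ (dimSite j - 1 - i.val)

/-- The almost normal element of the commutant at site `j`. -/
def gMat (j b : ℕ) : Matrix (Site j b) (Site j b) ℂ :=
  fun x y => if x.1 = y.1 ∧ x.2.val = y.2.val + 1 then gam j x.1 else 0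

/-- The selfadjoint element of the commutant at site `j`. -/
def cMat (j b : ℕ) : Matrix (Site j b) (Site j b) ℂ :=
  Matrix.diagonal fun x => (1 / 2 : ℂ) ^ x.2.val

lemma cMat_conjTranspose (j b : ℕ) : (cMat j b)ᴴ = cMat j b := by
  simp [cMat, Matrix.diagonal_conjTranspose]

lemma cMat_comm (j b : ℕ) : cMat j b * jMat j b = jMat j b * cMat j b := by
  ext x y
  rw [cMat, Matrix.diagonal_mul, Matrix.mul_diagonal, jMat]
  split_ifs with h
  · rw [h.2, mul_comm]
  · simp

lemma gMat_comm (j b : ℕ) : gMat j b * jMat j b = jMat j b * gMat j b := by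
  ext ⟨i, k⟩ ⟨l, k'⟩
  rw [Matrix.mul_apply, Matrix.mul_apply]
  by_cases h : i.val + 1 = l.val ∧ k.val = k'.val + 1
  · rw [Finset.sum_eq_single_of_mem (i, k') (mem_univ _),
      Finset.sum_eq_single_of_mem (l, k) (mem_univ _)]
    · simp only [gMat, jMat, h, and_self, if_true, coef, gam, pow_succ]
      have : dimSite j - 1 - i.val = dimSite j - 1 - l.val + 1 := by omega
      rw [this, pow_succ]; ring
    · rintro ⟨l', k''⟩ _ hne
      simp only [gMat, jMat]
      split_ifs with h1 h2 <;> try simp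
      exact absurd (Prod.ext h2.1 h1.2.symm) hne
    · rintro ⟨i', k''⟩ _ hne
      simp only [gMat, jMat]
      split_ifs with h1 h2 <;> try simp
      exact absurd (Prod.ext h1.1.symm h2.2) hne
  · rw [Finset.sum_eq_zero, Finset.sum_eq_zero]
    · rintro ⟨l', k''⟩ _
      simp only [gMat, jMat]
      split_ifs with h1 h2 <;> try simp
      exact absurd ⟨by rw [← h2.1]; exact h1.1, by rw [h1.2]; exact h2.2⟩ h
    · rintro ⟨i', k''⟩ _
      simp only [gMat, jMat]
      split_ifs with h1 h2 <;> try simp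
      exact absurd ⟨by rw [h1.1]; exact h2.1, by rw [← h2.2]; exact h1.2⟩ h

lemma sum_gMat_left (j b : ℕ) (x : Site j b) (F : Site j b → ℂ) :
    ∑ z, gMat j b x z * F z = if h : 0 < x.2.val then
      gam j x.1 * F (x.1, ⟨x.2.val - 1, by omega⟩) else 0 := by
  split_ifs with h
  · rw [Finset.sum_eq_single_of_mem (x.1, ⟨x.2.val - 1, by omega⟩) (mem_univ _)]
    · rw [gMat, if_pos ⟨rfl, by simp; omega⟩]
    · intro z _ hz
      rw [gMat, if_neg, zero_mul]
      exact fun h' => hz (Prod.ext h'.1.symm (Fin.ext (by simp; omega)))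
  · refine Finset.sum_eq_zero fun z _ => ?_
    rw [gMat, if_neg, zero_mul]
    exact fun h' => h (by omega)

lemma sum_gMat_right (j b : ℕ) (y : Site j b) (F : Site j b → ℂ) :
    ∑ z, F z * gMat j b z y = if h : y.2.val < b then
      F (y.1, ⟨y.2.val + 1, by omega⟩) * gam j y.1 else 0 := by
  split_ifs with h
  · rw [Finset.sum_eq_single_of_mem (y.1, ⟨y.2.val + 1, by omega⟩) (mem_univ _)]
    · rw [gMat, if_pos ⟨rfl, rfl⟩]
    · intro z _ hz
      rw [gMat, if_neg, mul_zero]
      exact fun h' => hz (Prod.ext h'.1 (Fin.ext h'.2))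
  · refine Finset.sum_eq_zero fun z _ => ?_
    rw [gMat, if_neg, mul_zero]
    exact fun h' => h (by have := z.2.isLt; omega)

lemma conj_gam (j : ℕ) (i : Fin (dimSite j)) : conj (gam j i) = gam j i := by
  simp [gam, map_pow, map_ofNat]

lemma norm_gam_le (j : ℕ) (i : Fin (dimSite j)) : ‖gam j i‖ ≤ 1 := by
  simp only [gam, norm_pow]; exact pow_le_one₀ (norm_nonneg _) (by norm_num)

lemma gam_gap {j : ℕ} {i l : Fin (dimSite j)} (h : i ≠ l) :
    (1 / 4 : ℝ) ^ dimSite j ≤ ‖gam j i ^ 2 - gam j l ^ 2‖ := by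
  have key : ∀ a c : ℕ, a < c → c < dimSite j →
      (1 / 4 : ℝ) ^ dimSite j ≤ (1 / 4 : ℝ) ^ a - (1 / 4) ^ c := by
    intro a c hac hc
    have h1 : (1 / 4 : ℝ) ^ c ≤ (1 / 4) ^ (a + 1) :=
      pow_le_pow_of_le_one (by norm_num) (by norm_num) hac
    have h2 : (1 / 4 : ℝ) ^ dimSite j ≤ (1 / 4) ^ (a + 1) :=
      pow_le_pow_of_le_one (by norm_num) (by norm_num) (by omega)
    rw [pow_succ] at h1 h2
    nlinarith [pow_nonneg (by norm_num : (0 : ℝ) ≤ 1 / 4) a]
  have hcast : ∀ i : Fin (dimSite j),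
      gam j i ^ 2 = ((1 / 4 : ℝ) ^ (dimSite j - 1 - i.val) : ℝ) := by
    intro i; simp only [gam, ← pow_mul]; rw [mul_comm, pow_mul]; norm_num
  rw [hcast, hcast, ← Complex.ofReal_sub, Complex.norm_real, Real.norm_eq_abs]
  have hi := i.isLt; have hl := l.isLt
  rcases lt_or_gt_of_ne (fun e => h (Fin.ext e) : i.val ≠ l.val) with hlt | hlt
  · rw [abs_sub_comm]
    exact (key _ _ (by omega) (by omega)).trans (le_abs_self _)
  · exact (key _ _ (by omega) (by omega)).trans (le_abs_self _)

/-- The constant of the estimate at site `j`. -/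
def siteK (j : ℕ) : ℝ := 8 * 16 ^ dimSite j + 1

lemma siteK_nonneg (j : ℕ) : 0 ≤ siteK j := by unfold siteK; positivity

lemma gMat_defect_apply (j b : ℕ) (z : Site j b) :
    (gMat j b * (gMat j b)ᴴ - (gMat j b)ᴴ * gMat j b) z z =
      gam j z.1 ^ 2 * ((if 0 < z.2.val then 1 else 0) - (if z.2.val < b then 1 else 0)) := by
  rw [Matrix.sub_apply, Matrix.mul_apply, Matrix.mul_apply,
    sum_gMat_left j b z (fun t => (gMat j b)ᴴ t z),
    sum_gMat_right j b z (fun t => (gMat j b)ᴴ z t), mul_sub]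
  congr 1
  · split_ifs with h
    · have e : z.2.val - 1 + 1 = z.2.val := by omega
      simp [gMat, conj_gam, sq, e]
    · simp
  · split_ifs with h
    · simp [gMat, conj_gam, sq]
    · simp

variable {B : ℕ → ℕ} {m : ℕ}

/-- `G` lifted to a level. -/
def gLift (B : ℕ → ℕ) (j : Fin m) : Matrix (Lv B m) (Lv B m) ℂ := lift j (gMat j (B j))

/-- `C` lifted to a level. -/
def cLift (B : ℕ → ℕ) (j : Fin m) : Matrix (Lv B m) (Lv B m) ℂ := lift j (cMat j (B j))

lemma norm_ntr_inner_le {ι : Type*} [Fintype ι] (X Y : Matrix ι ι ℂ) :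
    ‖ntr (Xᴴ * Y)‖ ≤ √(nsq X) * √(nsq Y) := by
  rcases isEmpty_or_nonempty ι with h | h
  · simp [ntr, nsq]
  rw [ntr_conjTranspose_mul, nsq_eq, nsq_eq, ← Real.sqrt_mul (div_nonneg (fro_nonneg X)
    (Nat.cast_nonneg _)), div_mul_div_comm, Real.sqrt_div' _ (by positivity),
    Real.sqrt_mul_self (Nat.cast_nonneg _), norm_div, Complex.norm_natCast]
  gcongr
  rw [Real.sqrt_mul (fro_nonneg X)]
  unfold fro
  rw [← Fintype.sum_prod_type', ← Fintype.sum_prod_type', ← Fintype.sum_prod_type']
  refine (norm_sum_le _ _).trans ?_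
  have := Real.sum_mul_le_sqrt_mul_sqrt (univ : Finset (ι × ι))
    (fun p => ‖X p.1 p.2‖) (fun p => ‖Y p.1 p.2‖)
  simpa using this

lemma diag_bound (j : Fin m) (f : Matrix (Lv B m) (Lv B m) ℂ)
    (hcol : ∀ u, ∑ v, ‖f u v‖ ^ 2 ≤ 1) :
    ‖ntr ((gLift B j * (gLift B j)ᴴ - (gLift B j)ᴴ * gLift B j) * f)‖ ≤ 2 / (B j + 1) := by
  have hf1 : ∀ u v, ‖f u v‖ ≤ 1 := fun u v => by
    have := (Finset.single_le_sum (f := fun v => ‖f u v‖ ^ 2) (fun _ _ => by positivity)
      (mem_univ v)).trans (hcol u)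
    exact (sq_le_one_iff₀ (norm_nonneg _)).1 this
  set g : Site j (B j) → ℝ := fun z =>
    if z.2.val = 0 ∨ z.2.val = B j then 1 else 0 with hg
  have hcount : ∑ z, g z ≤ 2 * dimSite j := by
    rw [Fintype.sum_prod_type]
    have : ∀ i : Fin (dimSite j), ∑ k : Fin (B j + 1), g (i, k) ≤ 2 := by
      intro i
      calc ∑ k : Fin (B j + 1), g (i, k)
          ≤ ∑ k : Fin (B j + 1), ((if k = 0 then (1 : ℝ) else 0) +
              if k = Fin.last (B j) then 1 else 0) := by
            refine Finset.sum_le_sum fun k _ => ?_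
            simp only [hg, Fin.ext_iff, Fin.val_zero, Fin.val_last]
            split_ifs <;> first | omega | norm_num
        _ = 2 := by rw [Finset.sum_add_distrib]; simp; norm_num
    calc _ ≤ ∑ _i : Fin (dimSite j), (2 : ℝ) := Finset.sum_le_sum fun i _ => this i
      _ = _ := by simp [mul_comm]
  rw [show gLift B j * (gLift B j)ᴴ - (gLift B j)ᴴ * gLift B j =
    lift (s := fun i : Fin m => B i) j
      (gMat j (B j) * (gMat j (B j))ᴴ - (gMat j (B j))ᴴ * gMat j (B j)) by
      rw [lift_sub, ← lift_mul, ← lift_mul, gLift, lift_conjTranspose]]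
  set D := gMat j (B j) * (gMat j (B j))ᴴ - (gMat j (B j))ᴴ * gMat j (B j) with hD
  have hoff : ∀ x y, x ≠ y → D x y = 0 := by
    intro x y hxy
    rw [hD, Matrix.sub_apply, Matrix.mul_apply, Matrix.mul_apply,
      Finset.sum_eq_zero, Finset.sum_eq_zero, sub_zero]
    · intro z _
      rw [Matrix.conjTranspose_apply, gMat, gMat]
      split_ifs with h1 h2 <;> try simp
      exact absurd (Prod.ext (h1.1.symm.trans h2.1) (Fin.ext (by omega))) hxy
    · intro z _
      rw [Matrix.conjTranspose_apply, gMat, gMat]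
      split_ifs with h1 h2 <;> try simp
      exact absurd (Prod.ext (h1.1.trans h2.1.symm) (Fin.ext (by omega))) hxy
  have hdiag : ∀ x, ‖D x x‖ ≤ g x := by
    intro x
    rw [hD, gMat_defect_apply, norm_mul, norm_pow]
    have := pow_le_one₀ (n := 2) (norm_nonneg _) (norm_gam_le j x.1)
    simp only [hg]
    split_ifs <;> first | (simp only [sub_zero, zero_sub, sub_self, norm_one, norm_neg,
      norm_zero, mul_zero, mul_one]; linarith) | omega
  have hterm : ∀ u : Lv B m, ‖(lift (s := fun i : Fin m => B i) j D * f) u u‖ ≤ g (u j) := by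
    intro u
    rw [lift_mul_apply, Finset.sum_eq_single_of_mem (u j) (mem_univ _)
      (fun z _ hz => by rw [hoff _ _ (Ne.symm hz), zero_mul]), Function.update_eq_self, norm_mul]
    calc _ ≤ g (u j) * 1 := mul_le_mul (hdiag _) (hf1 _ _) (norm_nonneg _)
          ((norm_nonneg _).trans (hdiag _))
      _ = _ := mul_one _
  have hs := congrArg Complex.re (sum_site (s := fun i : Fin m => B i) j (fun z => (g z : ℂ)))
  simp only [Complex.mul_re, Complex.natCast_re, Complex.natCast_im, zero_mul, sub_zero,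
    Complex.re_sum, Complex.ofReal_re, Fintype.card_prod, Fintype.card_fin] at hs
  push_cast at hs
  unfold ntr
  rw [norm_div, Complex.norm_natCast, div_le_div_iff₀ (card_pos B m) (by positivity)]
  have h1 : ‖∑ u : Lv B m, (lift (s := fun i : Fin m => B i) j D * f) u u‖ ≤ ∑ u : Lv B m, g (u j) :=
    (norm_sum_le _ _).trans (Finset.sum_le_sum fun u _ => hterm u)
  have hd : (0 : ℝ) < dimSite j := by exact_mod_cast dimSite_pos j
  refine le_of_mul_le_mul_left ?_ hd
  calc (dimSite j : ℝ) * (‖∑ u : Lv B m, (lift (s := fun i : Fin m => B i) j D * f) u u‖ * (B j + 1))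
      ≤ (dimSite j : ℝ) * ((∑ u : Lv B m, g (u j)) * (B j + 1)) := by gcongr
    _ = (Fintype.card (Lv B m) : ℝ) * ∑ z, g z := by
        rw [← hs]; simp [mul_comm, mul_assoc, mul_left_comm]
    _ ≤ (Fintype.card (Lv B m) : ℝ) * (2 * dimSite j) := by gcongr
    _ = _ := by ring

/-- Raise the multiplicity index of one coordinate. -/
def up (j : Fin m) (u : Lv B m) : Lv B m :=
  Function.update u j ((u j).1, if h : (u j).2.val < B j then ⟨(u j).2.val + 1, Nat.succ_lt_succ h⟩
    else (u j).2)

lemma sum_up_le (j : Fin m) (F : Lv B m → ℝ) (hF : ∀ u, 0 ≤ F u) :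
    ∑ u ∈ univ.filter (fun u : Lv B m => (u j).2.val < B j), F (up j u) ≤ ∑ u, F u := by
  rw [← Finset.sum_image (f := F) (g := up j)]
  · exact Finset.sum_le_sum_of_subset_of_nonneg (subset_univ _) fun u _ _ => hF u
  · intro a ha b hb hab
    simp only [coe_filter, mem_univ, true_and, Set.mem_ofPred_eq] at ha hb
    funext i
    by_cases hi : i = j
    · subst hi
      have := congrFun hab i
      simp only [up, Function.update_self, dif_pos ha, dif_pos hb, Prod.ext_iff, Fin.ext_iff,
        Nat.add_right_cancel_iff] at this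
      exact Prod.ext (Fin.ext this.1) (Fin.ext this.2)
    · have := congrFun hab i
      simpa [up, Function.update_of_ne hi] using this

lemma defect_apply_up (j : Fin m) (f : Matrix (Lv B m) (Lv B m) ℂ) (u v : Lv B m)
    (hu : (u j).2.val < B j) (hv : (v j).2.val < B j) :
    (gLift B j * f - f * gLift B j) (up j u) v =
      gam j (u j).1 * f u v - f (up j u) (up j v) * gam j (v j).1 := by
  have e1 : (up j u) j = ((u j).1, ⟨(u j).2.val + 1, Nat.succ_lt_succ hu⟩) := by
    simp [up, hu]
  rw [Matrix.sub_apply, gLift, lift_mul_apply, mul_lift_apply,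
    sum_gMat_left _ _ _ (fun z => f (Function.update (up j u) j z) v),
    sum_gMat_right _ _ _ (fun z => f (up j u) (Function.update v j z)),
    dif_pos (by rw [e1]; simp), dif_pos hv]
  have e2 : Function.update (up j u) j (((up j u) j).1,
      ⟨((up j u) j).2.val - 1, Nat.lt_of_le_of_lt (Nat.sub_le _ _) (Fin.isLt _)⟩) = u := by
    funext i
    by_cases hi : i = j
    · subst hi; simp [e1]
    · simp [up, Function.update_of_ne hi]
  have e3 : Function.update v j ((v j).1, ⟨(v j).2.val + 1, Nat.succ_lt_succ hv⟩) = up j v := by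
    simp [up, hv]
  rw [e2, e3, e1]

lemma cdefect_apply (j : Fin m) (f : Matrix (Lv B m) (Lv B m) ℂ) (u v : Lv B m) :
    (cLift B j * f - f * cLift B j) u v =
      ((1 / 2 : ℂ) ^ (u j).2.val - (1 / 2) ^ (v j).2.val) * f u v := by
  rw [Matrix.sub_apply, cLift, lift_mul_apply, mul_lift_apply,
    Finset.sum_eq_single_of_mem (u j) (mem_univ _)
      (fun z _ hz => by simp [cMat, Matrix.diagonal_apply_ne' _ hz]),
    Finset.sum_eq_single_of_mem (v j) (mem_univ _)
      (fun z _ hz => by simp [cMat, Matrix.diagonal_apply_ne _ hz]),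
    Function.update_eq_self, Function.update_eq_self, cMat, Matrix.diagonal_apply_eq,
    Matrix.diagonal_apply_eq]
  ring

lemma half_gap {b k k' : ℕ} (hk : k ≤ b) (hk' : k' ≤ b) (h : k ≠ k') :
    (1 / 2 : ℝ) ^ b ≤ ‖(1 / 2 : ℂ) ^ k - (1 / 2) ^ k'‖ := by
  have key : ∀ a c : ℕ, a < c → c ≤ b → (1 / 2 : ℝ) ^ b ≤ (1 / 2 : ℝ) ^ a - (1 / 2) ^ c := by
    intro a c hac hc
    have h1 : (1 / 2 : ℝ) ^ c ≤ (1 / 2) ^ (a + 1) :=
      pow_le_pow_of_le_one (by norm_num) (by norm_num) hac
    have h2 : (1 / 2 : ℝ) ^ b ≤ (1 / 2) ^ (a + 1) :=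
      pow_le_pow_of_le_one (by norm_num) (by norm_num) (by omega)
    rw [pow_succ] at h1 h2
    linarith
  have e : ((1 / 2 : ℂ) ^ k - (1 / 2) ^ k') = (((1 / 2 : ℝ) ^ k - (1 / 2) ^ k' : ℝ) : ℂ) := by
    push_cast; ring
  rw [e, Complex.norm_real, Real.norm_eq_abs]
  rcases lt_or_gt_of_ne h with hlt | hlt
  · exact (key _ _ hlt hk').trans (le_abs_self _)
  · rw [abs_sub_comm]; exact (key _ _ hlt hk).trans (le_abs_self _)

lemma sum_top (j : Fin m) :
    ∑ u : Lv B m, (if (u j).2.val = B j then (1 : ℝ) else 0)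
      = Fintype.card (Lv B m) / (B j + 1) := by
  have hs := congrArg Complex.re (sum_site (s := fun i : Fin m => B i) j
    (fun z => ((if z.2.val = B j then 1 else 0 : ℝ) : ℂ)))
  simp only [Complex.mul_re, Complex.natCast_re, Complex.natCast_im, zero_mul, sub_zero,
    Complex.re_sum, Complex.ofReal_re, Fintype.card_prod, Fintype.card_fin] at hs
  have e : ∑ z : Site j (B j), (if z.2.val = B j then (1 : ℝ) else 0) = dimSite j := by
    rw [Fintype.sum_prod_type]
    have : ∀ k : Fin (B j + 1), (k.val = B j) = (k = Fin.last (B j)) := fun k => by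
      simp [Fin.ext_iff]
    simp [this]
  rw [e] at hs
  push_cast at hs
  have hd : (0 : ℝ) < dimSite j := by exact_mod_cast dimSite_pos j
  rw [eq_div_iff (by positivity)]
  refine mul_left_cancel₀ hd.ne' ?_
  linear_combination hs

theorem offd_le (j : Fin m) (f : Matrix (Lv B m) (Lv B m) ℂ) (hsym : fᴴ = f)
    (hcol : ∀ u, ∑ v, ‖f u v‖ ^ 2 ≤ 1) {e Lg : ℝ}
    (he : nsq (f * f - f) ≤ e) (heG : nsq (f * gLift B j * f - gLift B j * f) ≤ e)
    (heC : nsq (f * cLift B j * f - cLift B j * f) ≤ e)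
    (hL1 : √(nsq ((gLift B j)ᴴ * gLift B j + gLift B j * (gLift B j)ᴴ)) ≤ Lg)
    (hL2 : √(nsq (gLift B j)) ≤ Lg) :
    offd j f ≤ siteK j / (B j + 1) + (12 * 16 ^ dimSite j * Lg * √e + 4 * 4 ^ B j * e) := by
  set G := gLift B j with hG
  set C := cLift B j with hC
  set A := G * f - f * G with hA
  have hL : 0 ≤ Lg := (Real.sqrt_nonneg _).trans hL2
  have hAn : nsq A ≤ 2 / (B j + 1) + 3 * Lg * √e := by
    have key : ntr (Aᴴ * A) = ntr ((G * Gᴴ - Gᴴ * G) * f)
        + ntr ((Gᴴ * G + G * Gᴴ)ᴴ * (f * f - f)) - 2 * ntr (Gᴴ * (f * G * f - G * f)) := by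
      have c1 : ntr (f * Gᴴ * (G * f)) = ntr (Gᴴ * G * (f * f)) := by
        rw [show f * Gᴴ * (G * f) = f * (Gᴴ * G * f) by simp only [mul_assoc], ntr_mul_comm,
          mul_assoc]
      have c2 : ntr (f * Gᴴ * (f * G)) = ntr (Gᴴ * (f * G * f)) := by
        rw [show f * Gᴴ * (f * G) = f * (Gᴴ * (f * G)) by simp only [mul_assoc], ntr_mul_comm]
        simp only [mul_assoc]
      have c3 : ntr (Gᴴ * f * (f * G)) = ntr (G * Gᴴ * (f * f)) := by
        rw [show Gᴴ * f * (f * G) = (Gᴴ * (f * f)) * G by simp only [mul_assoc], ntr_mul_comm]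
        simp only [mul_assoc]
      have e1 : ntr (Aᴴ * A) = ntr (f * Gᴴ * (G * f)) - ntr (f * Gᴴ * (f * G))
          - (ntr (Gᴴ * f * (G * f)) - ntr (Gᴴ * f * (f * G))) := by
        rw [hA, Matrix.conjTranspose_sub, Matrix.conjTranspose_mul, Matrix.conjTranspose_mul,
          hsym, sub_mul, mul_sub, mul_sub, ntr_sub, ntr_sub, ntr_sub]
      have e4 : ntr (Gᴴ * f * (G * f)) = ntr (Gᴴ * (f * G * f)) := by simp only [mul_assoc]
      rw [e1, c1, c2, c3, e4]
      simp only [Matrix.conjTranspose_add, Matrix.conjTranspose_mul,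
        Matrix.conjTranspose_conjTranspose, mul_sub, sub_mul, add_mul, ntr_sub, ntr_add,
        mul_assoc]
      ring
    have h1 : nsq A = (ntr (Aᴴ * A)).re := by rw [ntr_self]; simp
    rw [h1, key]
    refine (Complex.re_le_norm _).trans ((norm_sub_le _ _).trans ?_)
    have b1 := diag_bound j f hcol
    have b2 := norm_ntr_inner_le (Gᴴ * G + G * Gᴴ) (f * f - f)
    have b3 := norm_ntr_inner_le G (f * G * f - G * f)
    rw [norm_mul, Complex.norm_ofNat]
    refine (add_le_add (norm_add_le _ _) le_rfl).trans ?_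
    have s1 : √(nsq (Gᴴ * G + G * Gᴴ)) * √(nsq (f * f - f)) ≤ Lg * √e :=
      mul_le_mul hL1 (Real.sqrt_le_sqrt he) (Real.sqrt_nonneg _) hL
    have s2 : √(nsq G) * √(nsq (f * G * f - G * f)) ≤ Lg * √e :=
      mul_le_mul hL2 (Real.sqrt_le_sqrt heG) (Real.sqrt_nonneg _) hL
    rw [← hG] at b1
    nlinarith
  have hCn : nsq (C * f - f * C) ≤ 4 * e := by
    have hCsym : Cᴴ = C := by rw [hC, cLift, lift_conjTranspose, cMat_conjTranspose]
    have : C * f - f * C = (f * C * f - f * C) - (f * C * f - C * f) := by abel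
    rw [this]
    refine (nsq_sub_le _ _).trans ?_
    have h2 : nsq (f * C * f - f * C) = nsq (f * C * f - C * f) := by
      rw [← nsq_conjTranspose]
      simp [Matrix.conjTranspose_sub, Matrix.conjTranspose_mul, hsym, hCsym, mul_assoc]
    linarith
  have hpt : ∀ u v : Lv B m, (if u j = v j then 0 else ‖f u v‖ ^ 2) ≤
      4 ^ B j * ‖(C * f - f * C) u v‖ ^ 2
      + 2 * 16 ^ dimSite j * (if (u j).2.val < B j then ‖A (up j u) v‖ ^ 2 else 0)
      + 2 * 16 ^ dimSite j * (if (v j).2.val < B j then ‖A (up j v) u‖ ^ 2 else 0)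
      + (if (u j).2.val = B j then ‖f u v‖ ^ 2 else 0) := by
    intro u v
    have n1 : 0 ≤ 4 ^ B j * ‖(C * f - f * C) u v‖ ^ 2 := by positivity
    have n2 : 0 ≤ 2 * 16 ^ dimSite j *
        (if (u j).2.val < B j then ‖A (up j u) v‖ ^ 2 else 0) := by positivity
    have n3 : 0 ≤ 2 * 16 ^ dimSite j *
        (if (v j).2.val < B j then ‖A (up j v) u‖ ^ 2 else 0) := by positivity
    have n4 : 0 ≤ (if (u j).2.val = B j then ‖f u v‖ ^ 2 else 0) := by positivity
    by_cases huv : u j = v j
    · rw [if_pos huv]; linarith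
    rw [if_neg huv]
    by_cases hk : (u j).2.val = (v j).2.val
    · by_cases htop : (u j).2.val = B j
      · rw [if_pos htop]; rw [if_pos htop] at n4; linarith
      · have hu : (u j).2.val < B j := by have : (u j).2.val < B j + 1 := (u j).2.isLt; omega
        have hv : (v j).2.val < B j := by omega
        have hi : (u j).1 ≠ (v j).1 := fun h => huv (Prod.ext h (Fin.ext hk))
        have a1 := defect_apply_up j f u v hu hv
        have a2 := congrArg (starRingEnd ℂ) (defect_apply_up j f v u hv hu)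
        rw [map_sub, map_mul, map_mul, conj_gam, conj_gam] at a2
        have s1 : conj (f v u) = f u v := by
          conv_rhs => rw [← hsym]
          rfl
        have s2 : conj (f (up j v) (up j u)) = f (up j u) (up j v) := by
          conv_rhs => rw [← hsym]
          rfl
        rw [s1, s2] at a2
        rw [← hG, ← hA] at a1 a2
        have e : (gam j (u j).1 ^ 2 - gam j (v j).1 ^ 2) * f u v =
            gam j (u j).1 * A (up j u) v - gam j (v j).1 * conj (A (up j v) u) := by
          rw [a1, a2]; ring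
        have hb : (1 / 4 : ℝ) ^ dimSite j * ‖f u v‖ ≤
            ‖A (up j u) v‖ + ‖A (up j v) u‖ := by
          calc _ ≤ ‖gam j (u j).1 ^ 2 - gam j (v j).1 ^ 2‖ * ‖f u v‖ := by
                gcongr; exact gam_gap hi
            _ = ‖gam j (u j).1 * A (up j u) v - gam j (v j).1 * conj (A (up j v) u)‖ := by
                rw [← norm_mul, e]
            _ ≤ _ := by
                refine (norm_sub_le _ _).trans (add_le_add ?_ ?_) <;> rw [norm_mul]
                · exact mul_le_of_le_one_left (norm_nonneg _) (norm_gam_le _ _)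
                · rw [RCLike.norm_conj]
                  exact mul_le_of_le_one_left (norm_nonneg _) (norm_gam_le _ _)
        rw [if_pos hu, if_pos hv]
        have h16 : (16 : ℝ) ^ dimSite j * ((1 / 4 : ℝ) ^ dimSite j) ^ 2 = 1 := by
          rw [← pow_mul, mul_comm (dimSite j), pow_mul, ← mul_pow]; norm_num
        have hsq : ((1 / 4 : ℝ) ^ dimSite j * ‖f u v‖) ^ 2 ≤
            2 * ‖A (up j u) v‖ ^ 2 + 2 * ‖A (up j v) u‖ ^ 2 := by
          refine (pow_le_pow_left₀ (by positivity) hb 2).trans ?_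
          nlinarith [sq_nonneg (‖A (up j u) v‖ - ‖A (up j v) u‖)]
        have := mul_le_mul_of_nonneg_left hsq (pow_nonneg (by norm_num : (0 : ℝ) ≤ 16)
          (dimSite j))
        rw [mul_pow, ← mul_assoc, h16, one_mul] at this
        linarith
    · have hb : (1 / 2 : ℝ) ^ B j * ‖f u v‖ ≤ ‖(C * f - f * C) u v‖ := by
        rw [hC, cdefect_apply, norm_mul]
        gcongr
        exact half_gap (Nat.lt_succ_iff.1 (u j).2.isLt) (Nat.lt_succ_iff.1 (v j).2.isLt) hk
      have := mul_le_mul_of_nonneg_left (pow_le_pow_left₀ (by positivity) hb 2)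
        (pow_nonneg (by norm_num : (0 : ℝ) ≤ 4) (B j))
      have h4 : (4 : ℝ) ^ B j * ((1 / 2 : ℝ) ^ B j) ^ 2 = 1 := by
        rw [← pow_mul, mul_comm (B j), pow_mul, ← mul_pow]; norm_num
      rw [mul_pow, ← mul_assoc, h4, one_mul] at this
      linarith
  have hAsum : ∑ u, ∑ v, (if (u j).2.val < B j then ‖A (up j u) v‖ ^ 2 else 0) ≤ fro A := by
    have := sum_up_le j (fun u => ∑ v, ‖A u v‖ ^ 2) (fun u => by positivity)
    refine le_trans (le_of_eq ?_) this
    rw [Finset.sum_filter]
    exact Finset.sum_congr rfl fun u _ => by split_ifs <;> simp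
  have hAsum' : ∑ u, ∑ v, (if (v j).2.val < B j then ‖A (up j v) u‖ ^ 2 else 0) ≤ fro A := by
    rw [Finset.sum_comm]; exact hAsum
  have htopsum : ∑ u, ∑ v, (if (u j).2.val = B j then ‖f u v‖ ^ 2 else 0)
      ≤ (Fintype.card (Lv B m) : ℝ) / (B j + 1) := by
    rw [← sum_top (B := B) j]
    refine Finset.sum_le_sum fun u _ => ?_
    split_ifs with h
    · exact hcol u
    · simp
  have htot : offd j f ≤ (4 ^ B j * fro (C * f - f * C) + 4 * 16 ^ dimSite j * fro A
      + Fintype.card (Lv B m) / (B j + 1)) / Fintype.card (Lv B m) := by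
    unfold offd
    gcongr
    refine (Finset.sum_le_sum fun u _ => Finset.sum_le_sum fun v _ => hpt u v).trans ?_
    simp only [Finset.sum_add_distrib, ← Finset.mul_sum]
    have : (0 : ℝ) ≤ 2 * 16 ^ dimSite j := by positivity
    unfold fro at hAsum hAsum' ⊢
    nlinarith
  refine htot.trans ?_
  have hc := card_pos B m
  have heq : (4 ^ B j * fro (C * f - f * C) + 4 * 16 ^ dimSite j * fro A
      + Fintype.card (Lv B m) / (B j + 1)) / Fintype.card (Lv B m)
      = 4 ^ B j * nsq (C * f - f * C) + 4 * 16 ^ dimSite j * nsq A + 1 / ((B j : ℝ) + 1) := by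
    rw [nsq_eq, nsq_eq]; field_simp
  rw [heq]
  have h4 : (0 : ℝ) ≤ 4 ^ B j := by positivity
  have h16 : (0 : ℝ) ≤ 4 * 16 ^ dimSite j := by positivity
  calc _ ≤ (4 : ℝ) ^ B j * (4 * e) + 4 * 16 ^ dimSite j * (2 / (B j + 1) + 3 * Lg * √e)
        + 1 / ((B j : ℝ) + 1) := by gcongr
    _ = _ := by unfold siteK; field_simp; ring

end

end Vale.Agent.P131
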