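import Vale.Agent.P131.Main

/-!
# Passing to an arbitrary separable infinite-dimensional Hilbert space
-/

namespace Vale.Agent.P131

open scoped InnerProductSpace

noncomputable section

lemma transfer {H K : Type*} [NormedAddCommGroup H] [InnerProductSpace ℂ H]
    [NormedAddCommGroup K] [InnerProductSpace ℂ K] (e : H ≃L[ℂ] K)
    (T : K →L[ℂ] K) (hT : ∀ c : ℂ, T ≠ c • 1)
    (hM : ∀ M : Submodule ℂ K, IsClosed (M : Set K) →
      (∀ A : K →L[ℂ] K, A * T = T * A → ∀ x ∈ M, A x ∈ M) → M = ⊥ ∨ M = ⊤) :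
    ∃ T' : H →L[ℂ] H, (∀ c : ℂ, T' ≠ c • 1) ∧
      ∀ M : Submodule ℂ H, IsClosed (M : Set H) →
        (∀ A : H →L[ℂ] H, A * T' = T' * A → ∀ x ∈ M, A x ∈ M) → M = ⊥ ∨ M = ⊤ := by
  refine ⟨(e.symm : K →L[ℂ] H).comp (T.comp (e : H →L[ℂ] K)), ?_, ?_⟩
  · intro c h
    apply hT c
    ext y
    have h' := congrArg (fun S : H →L[ℂ] H => e (S (e.symm y))) h
    simpa using h'
  · intro M hMc hMi
    have hcl : IsClosed ((M.comap ((e.symm : K →L[ℂ] H) : K →ₗ[ℂ] H)) : Set K) :=
      hMc.preimage e.symm.continuous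
    have key := hM _ hcl (fun A hA x hx => by
      have hA' : ∀ y, A (T y) = T (A y) := fun y => by
        simpa using congrArg (fun S : K →L[ℂ] K => S y) hA
      have := hMi ((e.symm : K →L[ℂ] H).comp (A.comp (e : H →L[ℂ] K))) (by
        ext z; simp [hA']) (e.symm x) hx
      simpa using this)
    rcases key with h | h
    · left
      refine (Submodule.eq_bot_iff _).2 fun x hx => ?_
      have : e x ∈ M.comap ((e.symm : K →L[ℂ] H) : K →ₗ[ℂ] H) := by simpa using hx
      rw [h, Submodule.mem_bot] at this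
      simpa using this
    · right
      refine (Submodule.eq_top_iff').2 fun x => ?_
      have : e x ∈ M.comap ((e.symm : K →L[ℂ] H) : K →ₗ[ℂ] H) := by rw [h]; trivial
      simpa using this

lemma exists_equiv_ell2 (H : Type) [NormedAddCommGroup H] [InnerProductSpace ℂ H]
    [CompleteSpace H] [TopologicalSpace.SeparableSpace H] (hH : ¬ FiniteDimensional ℂ H) :
    Nonempty (H ≃L[ℂ] lp (fun _ : ℕ => ℂ) 2) := by
  obtain ⟨w, b, hb⟩ := exists_hilbertBasis ℂ H
  have hon := b.orthonormal
  have hcount : Countable w := by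
    refine Pairwise.countable_of_isOpen_disjoint
      (s := fun i : w => Metric.ball (b i) (1 / 2)) ?_ (fun _ => Metric.isOpen_ball)
      (fun _ => Metric.nonempty_ball.2 (by norm_num))
    intro i j hij
    refine Metric.ball_disjoint_ball ?_
    have h := norm_sub_sq (𝕜 := ℂ) (b i) (b j)
    rw [hon.2 hij, hon.1 i, hon.1 j, ← dist_eq_norm] at h
    simp at h
    nlinarith [dist_nonneg (x := b i) (y := b j)]
  have hinf : Infinite w := by
    by_contra hfin
    rw [not_infinite_iff_finite] at hfin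
    apply hH
    have hs := b.dense_span
    have := FiniteDimensional.span_of_finite ℂ (Set.finite_range b)
    rw [(Submodule.closed_of_finiteDimensional (Submodule.span ℂ (Set.range b))).submodule_topologicalClosure_eq] at hs
    rw [hs] at this
    exact Module.Finite.equiv (Submodule.topEquiv (R := ℂ) (M := H))
  obtain ⟨f⟩ := nonempty_equiv_of_countable (α := ℕ) (β := w)
  have hsp : ⊤ ≤ (Submodule.span ℂ (Set.range (b ∘ f))).topologicalClosure := by
    rw [f.surjective.range_comp, b.dense_span]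
  exact ⟨(HilbertBasis.mk (hon.comp f f.injective) hsp).repr.toContinuousLinearEquiv⟩

/-- Every separable infinite-dimensional complex Hilbert space carries a nonscalar operator
without nontrivial hyperinvariant subspaces. -/
theorem no_hyperinvariant (H : Type) [NormedAddCommGroup H] [InnerProductSpace ℂ H]
    [CompleteSpace H] [TopologicalSpace.SeparableSpace H] (hH : ¬ FiniteDimensional ℂ H) :
    ∃ T : H →L[ℂ] H, (∀ c : ℂ, T ≠ c • 1) ∧
      ∀ M : Submodule ℂ H, IsClosed (M : Set H) →
        (∀ A : H →L[ℂ] H, A * T = T * A → ∀ x ∈ M, A x ∈ M) → M = ⊥ ∨ M = ⊤ := by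
  obtain ⟨T, hT, hM⟩ := goalMain
  obtain ⟨e⟩ := exists_equiv_ell2 H hH
  exact transfer e T hT hM

end

end Vale.Agent.P131
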