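import Vale.Agent.P131.Basic

/-!
# Windows: slicing a high level over a low level
-/

namespace Vale.Agent.P131

open scoped Matrix ComplexConjugate
open Finset

noncomputable section

variable {B : ℕ → ℕ} {n m : ℕ}

/-- Replace the first `n` coordinates of `w` by `x`. -/
def glue (x : Lv B n) (w : Lv B m) : Lv B m :=
  fun i => if h : i.val < n then x ⟨i.val, h⟩ else w i

lemma glue_lo (x : Lv B n) (w : Lv B m) (i : Fin m) (h : i.val < n) :
    glue x w i = x ⟨i.val, h⟩ := dif_pos h

lemma glue_hi (x : Lv B n) (w : Lv B m) (i : Fin m) (h : n ≤ i.val) :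
    glue x w i = w i := dif_neg (not_lt.2 h)

lemma trunc_glue (h : n ≤ m) (x : Lv B n) (w : Lv B m) : trunc h (glue x w) = x := by
  funext i; exact glue_lo x w (Fin.castLE h i) i.isLt

lemma glue_trunc (h : n ≤ m) (x : Lv B n) (w : Lv B m) :
    glue (trunc h w) (glue x w) = w := by
  funext i
  by_cases hi : i.val < n
  · rw [glue_lo _ _ i hi]; rfl
  · rw [glue_hi _ _ i (not_lt.1 hi), glue_hi _ _ i (not_lt.1 hi)]

/-- The exchange of the first coordinates. -/
def swapEquiv (h : n ≤ m) : Lv B n × Lv B m ≃ Lv B n × Lv B m where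
  toFun p := (trunc h p.2, glue p.1 p.2)
  invFun p := (trunc h p.2, glue p.1 p.2)
  left_inv p := by simp [trunc_glue, glue_trunc]
  right_inv p := by simp [trunc_glue, glue_trunc]

lemma sum_glue {α : Type*} [AddCommMonoid α] (h : n ≤ m) (g : Lv B m → α) :
    ∑ x : Lv B n, ∑ w : Lv B m, g (glue x w) = Fintype.card (Lv B n) • ∑ u, g u := by
  rw [← Fintype.sum_prod_type']
  rw [Fintype.sum_equiv (swapEquiv h) (fun p => g (glue p.1 p.2)) (fun p => g p.2)
    (fun p => rfl)]
  rw [Fintype.sum_prod_type]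
  simp [Finset.card_univ]

lemma glue_injective (h : n ≤ m) (w : Lv B m) :
    Function.Injective (fun x : Lv B n => glue x w) := by
  intro a b hab
  have := congrArg (trunc h) hab
  simpa [trunc_glue] using this

/-- The tails of `u` and `w` agree. -/
def SameTail (n : ℕ) (u w : Lv B m) : Prop := ∀ i : Fin m, n ≤ i.val → u i = w i

instance (u w : Lv B m) : Decidable (SameTail n u w) := by unfold SameTail; infer_instance

lemma sameTail_glue (x : Lv B n) (w : Lv B m) : SameTail n (glue x w) w :=
  fun i hi => glue_hi x w i hi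

lemma glue_of_sameTail (h : n ≤ m) {u w : Lv B m} (hu : SameTail n u w) :
    glue (trunc h u) w = u := by
  funext i
  by_cases hi : i.val < n
  · rw [glue_lo _ _ i hi]; rfl
  · rw [glue_hi _ _ i (not_lt.1 hi), hu i (not_lt.1 hi)]

lemma sameTail_glue_glue (x y : Lv B n) (w : Lv B m) :
    SameTail n (glue x w) (glue y w) := fun i hi => by rw [glue_hi _ _ i hi, glue_hi _ _ i hi]

lemma sum_sameTail {α : Type*} [AddCommMonoid α] (h : n ≤ m) (w : Lv B m) (g : Lv B m → α)
    (hg : ∀ u, ¬ SameTail n u w → g u = 0) : ∑ u, g u = ∑ y : Lv B n, g (glue y w) := by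
  symm
  refine Finset.sum_bij_ne_zero (fun y _ _ => glue y w) ?_ ?_ ?_ ?_
  · intros; exact mem_univ _
  · intro a _ _ b _ _ hab; exact glue_injective h w hab
  · intro u _ hu
    have hs : SameTail n u w := not_imp_comm.1 (hg u) hu
    exact ⟨trunc h u, mem_univ _, by rwa [glue_of_sameTail h hs], glue_of_sameTail h hs⟩
  · intros; rfl

/-- The diagonal block of `f` at the tail of `w`. -/
def blk (n : ℕ) (f : Matrix (Lv B m) (Lv B m) ℂ) (w : Lv B m) :
    Matrix (Lv B n) (Lv B n) ℂ := fun x y => f (glue x w) (glue y w)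

lemma embL_apply (h : n ≤ m) (a : Matrix (Lv B n) (Lv B n) ℂ) (u v : Lv B m) :
    embL h a u v = if SameTail n u v then a (trunc h u) (trunc h v) else 0 := by
  by_cases hs : SameTail n u v
  · rw [if_pos hs]; unfold embL; rw [if_pos]; exact hs
  · rw [if_neg hs]; unfold embL; rw [if_neg]; exact hs

lemma embL_mul_apply (h : n ≤ m) (a : Matrix (Lv B n) (Lv B n) ℂ)
    (g : Matrix (Lv B m) (Lv B m) ℂ) (x : Lv B n) (w z : Lv B m) :
    (embL h a * g) (glue x w) z = ∑ y : Lv B n, a x y * g (glue y w) z := by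
  rw [Matrix.mul_apply, sum_sameTail h w]
  · refine Finset.sum_congr rfl fun y _ => ?_
    rw [embL_apply, if_pos (sameTail_glue_glue x y w), trunc_glue, trunc_glue]
  · intro u hu
    rw [embL_apply, if_neg, zero_mul]
    intro hs; apply hu
    intro i hi; rw [← hs i hi, glue_hi _ _ i hi]

lemma mul_embL_apply (h : n ≤ m) (a : Matrix (Lv B n) (Lv B n) ℂ)
    (g : Matrix (Lv B m) (Lv B m) ℂ) (y : Lv B n) (w z : Lv B m) :
    (g * embL h a) z (glue y w) = ∑ x : Lv B n, g z (glue x w) * a x y := by
  rw [Matrix.mul_apply, sum_sameTail h w]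
  · refine Finset.sum_congr rfl fun x _ => ?_
    rw [embL_apply, if_pos (sameTail_glue_glue x y w), trunc_glue, trunc_glue]
  · intro u hu
    rw [embL_apply, if_neg, mul_zero]
    intro hs; apply hu
    intro i hi; rw [hs i hi, glue_hi _ _ i hi]

lemma blk_embL_mul (h : n ≤ m) (a : Matrix (Lv B n) (Lv B n) ℂ)
    (g : Matrix (Lv B m) (Lv B m) ℂ) (w : Lv B m) :
    blk n (embL h a * g) w = a * blk n g w := by
  ext x y; exact embL_mul_apply h a g x w (glue y w)

lemma blk_mul_embL (h : n ≤ m) (a : Matrix (Lv B n) (Lv B n) ℂ)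
    (g : Matrix (Lv B m) (Lv B m) ℂ) (w : Lv B m) :
    blk n (g * embL h a) w = blk n g w * a := by
  ext x y; exact mul_embL_apply h a g y w (glue x w)

lemma blk_add (f g : Matrix (Lv B m) (Lv B m) ℂ) (w : Lv B m) :
    blk n (f + g) w = blk n f w + blk n g w := rfl

lemma blk_sub (f g : Matrix (Lv B m) (Lv B m) ℂ) (w : Lv B m) :
    blk n (f - g) w = blk n f w - blk n g w := rfl

lemma blk_conjTranspose (f : Matrix (Lv B m) (Lv B m) ℂ) (w : Lv B m) :
    (blk n f w)ᴴ = blk n fᴴ w := rfl

/-- The part of `f` joining different tails. -/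
def offTail (n : ℕ) (f : Matrix (Lv B m) (Lv B m) ℂ) : Matrix (Lv B m) (Lv B m) ℂ :=
  fun u v => if SameTail n u v then 0 else f u v

lemma offTail_apply (f : Matrix (Lv B m) (Lv B m) ℂ) (u v : Lv B m) :
    offTail n f u v = if SameTail n u v then 0 else f u v := rfl

lemma offTail_mul_embL (h : n ≤ m) (a : Matrix (Lv B n) (Lv B n) ℂ)
    (f : Matrix (Lv B m) (Lv B m) ℂ) :
    offTail n (f * embL h a) = offTail n f * embL h a := by
  ext u v
  rw [offTail_apply, Matrix.mul_apply, Matrix.mul_apply]
  by_cases hs : SameTail n u v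
  · rw [if_pos hs]
    refine (Finset.sum_eq_zero fun z _ => ?_).symm
    rw [offTail_apply, embL_apply]
    by_cases hz : SameTail n u z
    · simp [hz]
    · have : ¬ SameTail n z v := fun h2 => hz fun i hi => by rw [hs i hi, h2 i hi]
      simp [this]
  · rw [if_neg hs]
    refine Finset.sum_congr rfl fun z _ => ?_
    rw [offTail_apply, embL_apply]
    by_cases hz : SameTail n u z
    · have : ¬ SameTail n z v := fun h2 => hs fun i hi => by rw [hz i hi, h2 i hi]
      simp [this]
    · simp [hz]

lemma blk_mul (h : n ≤ m) (f g : Matrix (Lv B m) (Lv B m) ℂ) (w : Lv B m) :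
    blk n (f * g) w = blk n f w * blk n g w + blk n (offTail n f * g) w := by
  ext x y
  simp only [blk, Matrix.add_apply, Matrix.mul_apply]
  have h1 : ∑ z : Lv B n, f (glue x w) (glue z w) * g (glue z w) (glue y w)
      = ∑ u, (if SameTail n (glue x w) u then f (glue x w) u else 0) * g u (glue y w) := by
    rw [sum_sameTail h w]
    · refine Finset.sum_congr rfl fun z _ => ?_
      rw [if_pos (sameTail_glue_glue x z w)]
    · intro u hu
      rw [if_neg, zero_mul]
      intro hs; apply hu; intro i hi; rw [← hs i hi, glue_hi _ _ i hi]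
  rw [h1, ← Finset.sum_add_distrib]
  refine Finset.sum_congr rfl fun u _ => ?_
  unfold offTail
  split_ifs <;> ring

end

end Vale.Agent.P131
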